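import Vale.Agent.P272.K.C2.Wirt
import Mathlib.Analysis.InnerProductSpace.Calculus
import Mathlib.Analysis.Calculus.FDeriv.Analytic
import Mathlib.Analysis.Calculus.ContDiff.RestrictScalars

/-!
# P284 (helper213): the Levi form of `log (‖v‖² + δ e^{m w})`, `v` Hilbert space valued holomorphic
-/

open scoped Manifold ContDiff Topology ComplexOrder ENNReal ComplexConjugate InnerProductSpace
open Filter MeasureTheory

set_option linter.all false

noncomputable section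

namespace Vale.Agent.P284.H213.KL

open Vale.Agent.P272.K Vale.Agent.P272.K.C2

variable {n : ℕ} {H : Type*} [NormedAddCommGroup H] [InnerProductSpace ℂ H]

/-- the Levi form of `f` at `z` on `β` -/
def lev (f : Cm n → ℝ) (z β : Cm n) : ℝ := (∑ j, ∑ k, cHess f z j k * β j * conj (β k)).re

/-- the `(1,0)` derivative of `f` at `z` in the direction `β` -/
def dd (f : Cm n → ℝ) (z β : Cm n) : ℂ := ∑ j, β j * dz j (fun y => (f y : ℂ)) z

lemma lev_congr {f g : Cm n → ℝ} {z : Cm n} (h : f =ᶠ[𝓝 z] g) (β : Cm n) :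
    lev f z β = lev g z β := by
  unfold lev; rw [cHess_congr h]

lemma lev_add {f g : Cm n → ℝ} {z : Cm n} (hf : ContDiffAt ℝ 2 f z) (hg : ContDiffAt ℝ 2 g z)
    (β : Cm n) : lev (fun y => f y + g y) z β = lev f z β + lev g z β := by
  unfold lev
  rw [cHess_add hf hg, ← Complex.add_re, ← Finset.sum_add_distrib]
  congr 1
  refine Finset.sum_congr rfl fun j _ => ?_
  rw [← Finset.sum_add_distrib]
  refine Finset.sum_congr rfl fun k _ => ?_
  rw [Matrix.add_apply]; ring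

lemma lev_const_mul {f : Cm n → ℝ} {z : Cm n} (hf : ContDiffAt ℝ 2 f z) (c : ℝ)
    (β : Cm n) : lev (fun y => c * f y) z β = c * lev f z β := by
  unfold lev
  rw [cHess_const_mul c hf, ← Complex.re_ofReal_mul, Finset.mul_sum]
  congr 1
  refine Finset.sum_congr rfl fun j _ => ?_
  rw [Finset.mul_sum]
  refine Finset.sum_congr rfl fun k _ => ?_
  rw [Matrix.smul_apply, smul_eq_mul]; ring

lemma dd_add {f g : Cm n → ℝ} {z : Cm n} (hf : DifferentiableAt ℝ f z)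
    (hg : DifferentiableAt ℝ g z) (β : Cm n) :
    dd (fun y => f y + g y) z β = dd f z β + dd g z β := by
  unfold dd
  rw [← Finset.sum_add_distrib]
  refine Finset.sum_congr rfl fun j _ => ?_
  have : (fun y => ((f y + g y : ℝ) : ℂ)) = fun y => (f y : ℂ) + (g y : ℂ) := by
    ext y; push_cast; ring
  rw [this, dz_add j (differentiableAt_ofReal hf) (differentiableAt_ofReal hg), mul_add]

/-- composition with a real function -/
lemma lev_comp {ψ ψ₁ : ℝ → ℝ} {ψ₂ : ℝ} {u : Cm n → ℝ} {z : Cm n}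
    (hψ : ∀ᶠ s in 𝓝 (u z), HasDerivAt ψ (ψ₁ s) s)
    (hψ₁ : HasDerivAt ψ₁ ψ₂ (u z)) (hu : ContDiffAt ℝ 2 u z) (β : Cm n) :
    lev (fun y => ψ (u y)) z β = ψ₁ (u z) * lev u z β + ψ₂ * ‖dd u z β‖ ^ 2 := by
  have hd : DifferentiableAt ℝ u z := hu.differentiableAt (by norm_num)
  have h1 : ∑ j, ∑ k, cHess (fun y => ψ (u y)) z j k * β j * conj (β k) =
      (ψ₁ (u z) : ℂ) * ∑ j, ∑ k, cHess u z j k * β j * conj (β k) +
      (ψ₂ : ℂ) * (dd u z β * conj (dd u z β)) := by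
    have h2 : conj (dd u z β) = ∑ k, conj (β k) * dzb k (fun y => (u y : ℂ)) z := by
      unfold dd
      rw [map_sum]
      refine Finset.sum_congr rfl fun k _ => ?_
      rw [map_mul, dzb_real k hd]
    rw [h2, dd, Finset.sum_mul, Finset.mul_sum, Finset.mul_sum, ← Finset.sum_add_distrib]
    refine Finset.sum_congr rfl fun j _ => ?_
    rw [Finset.mul_sum, Finset.mul_sum, Finset.mul_sum, ← Finset.sum_add_distrib]
    refine Finset.sum_congr rfl fun k _ => ?_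
    rw [cHess_comp hψ hψ₁ hu j k]
    ring
  unfold lev
  rw [h1, Complex.add_re, Complex.re_ofReal_mul, Complex.re_ofReal_mul, Complex.mul_conj,
    Complex.normSq_eq_norm_sq, Complex.ofReal_re]

lemma dd_comp {ψ : ℝ → ℝ} {ψ' : ℝ} {u : Cm n → ℝ} {z : Cm n} (hψ : HasDerivAt ψ ψ' (u z))
    (hu : DifferentiableAt ℝ u z) (β : Cm n) :
    dd (fun y => ψ (u y)) z β = (ψ' : ℂ) * dd u z β := by
  unfold dd
  rw [Finset.mul_sum]
  refine Finset.sum_congr rfl fun j _ => ?_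
  rw [dz_comp_real j hψ hu]; ring

lemma lev_log {u : Cm n → ℝ} {z : Cm n} (hu : ContDiffAt ℝ 2 u z) (h0 : 0 < u z) (β : Cm n) :
    lev (fun y => Real.log (u y)) z β = (u z)⁻¹ * lev u z β - (u z ^ 2)⁻¹ * ‖dd u z β‖ ^ 2 := by
  have h := lev_comp (ψ := Real.log) (ψ₁ := fun s => s⁻¹) (ψ₂ := -(u z ^ 2)⁻¹) (u := u) (z := z)
    (by
      filter_upwards [(isOpen_Ioi (a := (0 : ℝ))).mem_nhds h0] with s hs
      exact Real.hasDerivAt_log (ne_of_gt hs))
    (by simpa using hasDerivAt_inv (ne_of_gt h0)) hu β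
  rw [h]; ring

/-! ### the squared norm of a Hilbert space valued holomorphic function -/

section hilb
variable {v : Cm n → H} {z : Cm n}

lemma contDiffAt_of_an [CompleteSpace H] (hv : AnalyticAt ℂ v z) : ContDiffAt ℝ ∞ v z :=
  (hv.contDiffAt (n := ∞)).restrict_scalars ℝ

lemma contDiffAt_normSq [CompleteSpace H] (hv : AnalyticAt ℂ v z) :
    ContDiffAt ℝ ∞ (fun y => ‖v y‖ ^ 2) z :=
  (contDiffAt_of_an hv).norm_sq ℂ

/-- derivative of `⟪u, v⟫` for holomorphic `u`, `v` -/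
lemma fderiv_inner_holo {u v : Cm n → H} (hu : DifferentiableAt ℂ u z)
    (hv : DifferentiableAt ℂ v z) (e : Cm n) :
    fderiv ℝ (fun y => ⟪u y, v y⟫_ℂ) z e =
      ⟪u z, fderiv ℂ v z e⟫_ℂ + ⟪fderiv ℂ u z e, v z⟫_ℂ := by
  have hu' : HasFDerivAt u ((fderiv ℂ u z).restrictScalars ℝ) z :=
    hu.hasFDerivAt.restrictScalars ℝ
  have hv' : HasFDerivAt v ((fderiv ℂ v z).restrictScalars ℝ) z :=
    hv.hasFDerivAt.restrictScalars ℝ
  have := hu'.inner ℂ hv'
  rw [this.fderiv]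
  simp

lemma dzb_inner_holo {u v : Cm n → H} (hu : DifferentiableAt ℂ u z)
    (hv : DifferentiableAt ℂ v z) (k : Fin n) :
    dzb k (fun y => ⟪u y, v y⟫_ℂ) z = ⟪fderiv ℂ u z (Pi.single k 1), v z⟫_ℂ := by
  unfold dzb
  have e1 : (Pi.single k Complex.I : Cm n) = Complex.I • (Pi.single k (1 : ℂ) : Cm n) := by
    rw [← Pi.single_smul]; simp
  rw [fderiv_inner_holo hu hv, fderiv_inner_holo hu hv, e1, map_smul, map_smul,
    inner_smul_left, inner_smul_right]
  simp only [Complex.conj_I]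
  ring_nf
  simp only [Complex.I_sq]
  ring

lemma dz_inner_holo {u v : Cm n → H} (hu : DifferentiableAt ℂ u z)
    (hv : DifferentiableAt ℂ v z) (k : Fin n) :
    dz k (fun y => ⟪u y, v y⟫_ℂ) z = ⟪u z, fderiv ℂ v z (Pi.single k 1)⟫_ℂ := by
  unfold dz
  have e1 : (Pi.single k Complex.I : Cm n) = Complex.I • (Pi.single k (1 : ℂ) : Cm n) := by
    rw [← Pi.single_smul]; simp
  rw [fderiv_inner_holo hu hv, fderiv_inner_holo hu hv, e1, map_smul, map_smul,
    inner_smul_left, inner_smul_right]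
  simp only [Complex.conj_I]
  ring_nf
  simp only [Complex.I_sq]
  ring

lemma ofReal_normSq (v : H) : ((‖v‖ ^ 2 : ℝ) : ℂ) = ⟪v, v⟫_ℂ := by
  rw [inner_self_eq_norm_sq_to_K]; push_cast; rfl

lemma dd_normSq (hv : AnalyticAt ℂ v z) (β : Cm n) :
    dd (fun y => ‖v y‖ ^ 2) z β = ⟪v z, fderiv ℂ v z β⟫_ℂ := by
  unfold dd
  have h1 : (fun y => ((‖v y‖ ^ 2 : ℝ) : ℂ)) = fun y => ⟪v y, v y⟫_ℂ := by
    funext y; exact ofReal_normSq _
  rw [h1]
  have h2 : β = ∑ j, β j • (Pi.single j (1 : ℂ) : Cm n) := by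
    conv_lhs => rw [← Finset.univ_sum_single β]
    refine Finset.sum_congr rfl fun j _ => ?_
    rw [← Pi.single_smul]; simp
  conv_rhs => rw [h2]
  rw [map_sum, inner_sum]
  refine Finset.sum_congr rfl fun j _ => ?_
  rw [dz_inner_holo hv.differentiableAt hv.differentiableAt, map_smul, inner_smul_right]

lemma cHess_normSqH [CompleteSpace H] (hv : AnalyticAt ℂ v z) (j k : Fin n) :
    cHess (fun y => ‖v y‖ ^ 2) z j k =
      ⟪fderiv ℂ v z (Pi.single k 1), fderiv ℂ v z (Pi.single j 1)⟫_ℂ := by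
  rw [cHess_apply]
  have h1 : (fun y => ((‖v y‖ ^ 2 : ℝ) : ℂ)) = fun y => ⟪v y, v y⟫_ℂ := by
    funext y; exact ofReal_normSq _
  rw [h1]
  have h2 : dzb k (fun y => ⟪v y, v y⟫_ℂ) =ᶠ[𝓝 z]
      fun y => ⟪fderiv ℂ v y (Pi.single k 1), v y⟫_ℂ := by
    filter_upwards [hv.eventually_analyticAt] with y hy
    exact dzb_inner_holo hy.differentiableAt hy.differentiableAt k
  rw [dz_congr j h2]
  have h3 : DifferentiableAt ℂ (fun y => fderiv ℂ v y (Pi.single k 1)) z :=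
    (hv.fderiv.differentiableAt).clm_apply (differentiableAt_const _)
  exact dz_inner_holo h3 hv.differentiableAt j

lemma lev_normSq [CompleteSpace H] (hv : AnalyticAt ℂ v z) (β : Cm n) :
    lev (fun y => ‖v y‖ ^ 2) z β = ‖fderiv ℂ v z β‖ ^ 2 := by
  have h2 : β = ∑ j, β j • (Pi.single j (1 : ℂ) : Cm n) := by
    conv_lhs => rw [← Finset.univ_sum_single β]
    refine Finset.sum_congr rfl fun j _ => ?_
    rw [← Pi.single_smul]; simp
  have h3 : ∑ j, ∑ k, cHess (fun y => ‖v y‖ ^ 2) z j k * β j * conj (β k) =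
      ⟪fderiv ℂ v z β, fderiv ℂ v z β⟫_ℂ := by
    conv_rhs => rw [h2]
    rw [map_sum, inner_sum]
    refine Finset.sum_congr rfl fun j _ => ?_
    rw [sum_inner]
    refine Finset.sum_congr rfl fun k _ => ?_
    rw [cHess_normSqH hv, map_smul, map_smul, inner_smul_left, inner_smul_right]
    ring
  unfold lev
  rw [h3, ← ofReal_normSq, Complex.ofReal_re]

end hilb

/-- the algebraic inequality behind `log (A + B)` -/
lemma alg_ineq {a p A P : ℝ} {x y : ℂ} (ha : 0 ≤ a) (hp : 0 ≤ p) (hA : 0 ≤ A) (hP : 0 ≤ P)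
    (h1 : ‖x‖ ^ 2 ≤ a * p) (h2 : ‖y‖ ^ 2 ≤ A * P) :
    ‖x + y‖ ^ 2 ≤ (a + A) * (p + P) := by
  have h3 : ‖x + y‖ ≤ ‖x‖ + ‖y‖ := norm_add_le _ _
  have h4 : ‖x + y‖ ^ 2 ≤ (‖x‖ + ‖y‖) ^ 2 := pow_le_pow_left₀ (norm_nonneg _) h3 2
  have h5 : (2 * (‖x‖ * ‖y‖)) ≤ a * P + A * p := by
    have h6 : (‖x‖ * ‖y‖) ^ 2 ≤ (a * P) * (A * p) := by
      calc (‖x‖ * ‖y‖) ^ 2 = ‖x‖ ^ 2 * ‖y‖ ^ 2 := by ring
        _ ≤ (a * p) * (A * P) := mul_le_mul h1 h2 (by positivity) (by positivity)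
        _ = _ := by ring
    have h7 : 0 ≤ a * P := by positivity
    have h8 : 0 ≤ A * p := by positivity
    nlinarith [sq_nonneg (a * P - A * p), mul_nonneg (norm_nonneg x) (norm_nonneg y)]
  nlinarith

/-- **`log (‖v‖² + δ e^{m w})` is plurisubharmonic** if `w` is. -/
theorem lev_log_add [CompleteSpace H] {v : Cm n → H} {z : Cm n} (hv : AnalyticAt ℂ v z)
    {w : Cm n → ℝ} (hw : ContDiffAt ℝ 2 w z) (β : Cm n) (hwβ : 0 ≤ lev w z β) {δ : ℝ}
    (hδ : 0 < δ) (m : ℕ) :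
    0 ≤ lev (fun y => Real.log (‖v y‖ ^ 2 + δ * Real.exp ((m : ℝ) * w y))) z β := by
  set A : Cm n → ℝ := fun y => ‖v y‖ ^ 2 with hA
  set B : Cm n → ℝ := fun y => δ * Real.exp ((m : ℝ) * w y) with hB
  have hA2 : ContDiffAt ℝ 2 A z := (contDiffAt_normSq hv).of_le (by norm_cast)
  have hB2 : ContDiffAt ℝ 2 B z := contDiffAt_const.mul (contDiffAt_const.mul hw).exp
  have hA0 : 0 ≤ A z := by positivity
  have hB0 : 0 < B z := by positivity
  have hg : 0 < A z + B z := by positivity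
  have hwd : DifferentiableAt ℝ w z := hw.differentiableAt (by norm_num)
  -- the terms of `A`
  have hLA : lev A z β = ‖fderiv ℂ v z β‖ ^ 2 := lev_normSq hv β
  have hDA : ‖dd A z β‖ ^ 2 ≤ A z * lev A z β := by
    rw [hLA, dd_normSq hv, hA]
    have := norm_inner_le_norm (𝕜 := ℂ) (v z) (fderiv ℂ v z β)
    calc ‖⟪v z, fderiv ℂ v z β⟫_ℂ‖ ^ 2 ≤ (‖v z‖ * ‖fderiv ℂ v z β‖) ^ 2 :=
          pow_le_pow_left₀ (norm_nonneg _) this 2
      _ = _ := by ring
  -- the terms of `B`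
  have hψ : ∀ s : ℝ, HasDerivAt (fun s => δ * Real.exp ((m : ℝ) * s))
      (δ * m * Real.exp ((m : ℝ) * s)) s := by
    intro s
    have h := (((hasDerivAt_id' s).const_mul (m : ℝ)).exp).const_mul δ
    exact h.congr_deriv (by ring)
  have hψ₁ : HasDerivAt (fun s => δ * m * Real.exp ((m : ℝ) * s))
      (δ * m * m * Real.exp ((m : ℝ) * w z)) (w z) := by
    have h := (((hasDerivAt_id' (w z)).const_mul (m : ℝ)).exp).const_mul (δ * m)
    exact h.congr_deriv (by ring)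
  have hLB : lev B z β = m * B z * lev w z β + m ^ 2 * B z * ‖dd w z β‖ ^ 2 := by
    have h := lev_comp (ψ := fun s => δ * Real.exp ((m : ℝ) * s))
      (ψ₁ := fun s => δ * m * Real.exp ((m : ℝ) * s)) (u := w) (z := z)
      (Eventually.of_forall hψ) hψ₁ hw β
    rw [hB]
    simp only at h ⊢
    rw [h]; ring
  have hDB : ‖dd B z β‖ ^ 2 ≤ B z * lev B z β := by
    have h : dd B z β = ((δ * m * Real.exp ((m : ℝ) * w z) : ℝ) : ℂ) * dd w z β :=
      dd_comp (ψ := fun s => δ * Real.exp ((m : ℝ) * s)) (hψ (w z)) hwd β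
    have h2 : ‖((δ * m * Real.exp ((m : ℝ) * w z) : ℝ) : ℂ)‖ ^ 2 = (m * B z) ^ 2 := by
      rw [Complex.norm_real, Real.norm_eq_abs, sq_abs, hB]
      ring
    rw [h, norm_mul, mul_pow, h2, hLB]
    have h3 : 0 ≤ B z * (m * B z * lev w z β) := by positivity
    nlinarith
  have hLA0 : 0 ≤ lev A z β := by rw [hLA]; positivity
  have hLB0 : 0 ≤ lev B z β := by rw [hLB]; positivity
  have hdA : DifferentiableAt ℝ A z := hA2.differentiableAt (by norm_num)
  have hdB : DifferentiableAt ℝ B z := hB2.differentiableAt (by norm_num)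
  have h1 := alg_ineq hA0 hLA0 hB0.le hLB0 hDA hDB
  have h2 : lev (fun y => Real.log (A y + B y)) z β =
      (A z + B z)⁻¹ * (lev A z β + lev B z β) -
        ((A z + B z) ^ 2)⁻¹ * ‖dd A z β + dd B z β‖ ^ 2 := by
    rw [lev_log (u := fun y => A y + B y) (hA2.add hB2) hg β, lev_add hA2 hB2, dd_add hdA hdB]
  show 0 ≤ lev (fun y => Real.log (A y + B y)) z β
  rw [h2]
  have h3 : ((A z + B z) ^ 2)⁻¹ * ‖dd A z β + dd B z β‖ ^ 2 ≤
      ((A z + B z) ^ 2)⁻¹ * ((A z + B z) * (lev A z β + lev B z β)) :=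
    mul_le_mul_of_nonneg_left h1 (by positivity)
  have h4 : ((A z + B z) ^ 2)⁻¹ * ((A z + B z) * (lev A z β + lev B z β)) =
      (A z + B z)⁻¹ * (lev A z β + lev B z β) := by
    field_simp
  linarith

end Vale.Agent.P284.H213.KL
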