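import Vale.Agent.P284.H213.KL.Schw
import Vale.Agent.P272.KOD.Tools
import Vale.Agent.P272.KOD.Cmp

/-!
# P284 (helper213): `dim H⁰(Z, K_Z^M) ≤ C (M+1)^n`
-/

open scoped Manifold ContDiff ComplexOrder Topology ENNReal ComplexConjugate
open Filter Set Metric

set_option linter.all false

noncomputable section

namespace Vale.Agent.P284.H213.KL

open Vale.Agent.P272.K Vale.Agent.P272.KOD

variable {n : ℕ} {Z : Type*} [TopologicalSpace Z] [ChartedSpace (Cm n) Z]

/-- a finite family of coordinate balls, the half balls of which cover `Z` -/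
lemma exists_half_cover [CompactSpace Z] : ∃ (k : ℕ) (e : Fin k → Chart n Z) (c : Fin k → Cm n)
    (r : Fin k → ℝ), (∀ i, e i ∈ atlas (Cm n) Z) ∧ (∀ i, 0 < r i) ∧
    (∀ i, closedBall (c i) (r i) ⊆ (e i).target) ∧
    ∀ x : Z, ∃ i, x ∈ (e i).source ∧ e i x ∈ ball (c i) (r i / 2) := by
  classical
  have h1 : ∀ x : Z, ∃ r > 0, closedBall (chartAt (Cm n) x x) r ⊆ (chartAt (Cm n) x).target := by
    intro x
    obtain ⟨r, hr, h⟩ := Metric.isOpen_iff.1 (chartAt (Cm n) x).open_target _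
      (mem_chart_target (Cm n) x)
    exact ⟨r / 2, by positivity, (closedBall_subset_ball (by linarith)).trans h⟩
  choose r hr h using h1
  let U : Z → Set Z := fun x => (chartAt (Cm n) x).source ∩
    (chartAt (Cm n) x) ⁻¹' ball (chartAt (Cm n) x x) (r x / 2)
  have hU : ∀ x, U x ∈ 𝓝 x := fun x =>
    ((chartAt (Cm n) x).isOpen_inter_preimage isOpen_ball).mem_nhds
      ⟨mem_chart_source (Cm n) x, mem_ball_self (half_pos (hr x))⟩
  obtain ⟨t, ht⟩ := CompactSpace.elim_nhds_subcover U hU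
  let f := t.equivFin.symm
  refine ⟨t.card, fun i => chartAt (Cm n) (f i : Z), fun i => chartAt (Cm n) (f i : Z) (f i),
    fun i => r (f i), fun i => chart_mem_atlas (Cm n) _, fun i => hr _, fun i => h _, fun x => ?_⟩
  have hx : x ∈ ⋃ y ∈ t, U y := by rw [ht]; exact mem_univ x
  obtain ⟨y, hy, hxy⟩ := mem_iUnion₂.1 hx
  refine ⟨f.symm ⟨y, hy⟩, ?_⟩
  simp only [Equiv.apply_symm_apply]
  exact hxy

variable [IsManifold 𝓘(ℂ, Cm n) ω Z]

/-- **Sections with too many zeros vanish**, and finite families which are too large are linearly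
dependent. -/
theorem dim_fam [T2Space Z] [CompactSpace Z] : ∃ C : ℕ, ∀ (M k : ℕ) (s : Fin k → PSec n M Z),
    C * (M + 1) ^ n < k →
    ∃ c : Fin k → ℂ, c ≠ 0 ∧ ∀ e x, At e x → ∑ j, c j * (s j).coeff e (e x) = 0 := by
  classical
  obtain ⟨k₀, e, ctr, r, he, hr, hsub, hcov⟩ := exists_half_cover (n := n) (Z := Z)
  -- the bound for the determinants
  have hdet : ∀ i j, ∃ K : ℝ, ∀ x, x ∈ (e i).source → x ∈ (e j).source →
      e i x ∈ closedBall (ctr i) (r i) → e j x ∈ closedBall (ctr j) (r j) →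
      ‖(jacM (e i) (e j) x).det‖ ≤ K := by
    intro i j
    obtain ⟨δ, hδ, h⟩ := exists_det_ge (he j) (he i) (isCompact_closedBall (ctr j) (r j))
      (isCompact_closedBall (ctr i) (r i)) (hsub j) (hsub i)
    refine ⟨δ⁻¹, fun x hi hj hxi hxj => ?_⟩
    have h1 := h x hj hi hxj hxi
    have h2 : (jacM (e j) (e i) x).det * (jacM (e i) (e j) x).det = 1 := by
      rw [← Matrix.det_mul, jacM_mul ⟨he i, hi⟩ ⟨he j, hj⟩, Matrix.det_one]
    have h3 : ‖(jacM (e j) (e i) x).det‖ * ‖(jacM (e i) (e j) x).det‖ = 1 := by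
      rw [← norm_mul, h2, norm_one]
    have h4 : δ * ‖(jacM (e i) (e j) x).det‖ ≤ 1 := by
      rw [← h3]
      exact mul_le_mul_of_nonneg_right h1 (norm_nonneg _)
    rw [← one_div, le_div_iff₀ hδ, mul_comm]
    exact h4
  choose K hK using hdet
  obtain ⟨κ, hκ⟩ : ∃ κ : ℕ, ∀ i j, K i j ≤ 2 ^ κ := by
    obtain ⟨κ, hκ⟩ := pow_unbounded_of_one_lt (∑ i, ∑ j, |K i j|) (one_lt_two (α := ℝ))
    refine ⟨κ, fun i j => (le_abs_self _).trans (le_trans ?_ hκ.le)⟩
    calc |K i j| ≤ ∑ j, |K i j| :=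
          Finset.single_le_sum (f := fun j => |K i j|) (fun _ _ => abs_nonneg _)
            (Finset.mem_univ j)
      _ ≤ _ := Finset.single_le_sum (f := fun i => ∑ j, |K i j|)
            (fun _ _ => Finset.sum_nonneg fun _ _ => abs_nonneg _) (Finset.mem_univ i)
  refine ⟨k₀ * (κ + 1) ^ n, fun M k s hk => ?_⟩
  set T : ℕ := κ * M + 1 with hT
  -- the conditions
  let ι := Fin k₀ × (Fin n → Fin T)
  let A : ι → Fin k → ℂ := fun i j => jetL (ctr i.1) (fun l => (i.2 l : ℕ)) ((s j).coeff (e i.1))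
  have hcard : Fintype.card ι < k := by
    have h1 : Fintype.card ι = k₀ * T ^ n := by
      simp [ι, Fintype.card_prod, Fintype.card_pi]
    rw [h1]
    refine lt_of_le_of_lt ?_ hk
    rw [mul_assoc, ← mul_pow]
    gcongr
    rw [hT]; nlinarith
  let Φ : (Fin k → ℂ) →ₗ[ℂ] (ι → ℂ) := Matrix.mulVecLin (Matrix.of fun (i : ι) (g : Fin k) => A i g)
  have hlt : Module.finrank ℂ (ι → ℂ) < Module.finrank ℂ (Fin k → ℂ) := by
    rw [Module.finrank_fintype_fun_eq_card, Module.finrank_fintype_fun_eq_card, Fintype.card_fin]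
    exact hcard
  have hker := LinearMap.ker_ne_bot_of_finrank_lt (f := Φ) hlt
  obtain ⟨c, hc, hc0⟩ := Submodule.exists_mem_ne_zero_of_ne_bot hker
  refine ⟨c, hc0, ?_⟩
  have hA : ∀ i : ι, ∑ j, c j * A i j = 0 := by
    intro i
    have h1 : Φ c i = 0 := congrFun (LinearMap.mem_ker.1 hc) i
    rw [← h1]
    simp only [Φ, Matrix.mulVecLin_apply, Matrix.mulVec, dotProduct, Matrix.of_apply]
    exact Finset.sum_congr rfl fun j _ => mul_comm _ _
  -- the section
  set F : Chart n Z → Cm n → ℂ := fun e' z => ∑ j, c j * (s j).coeff e' z with hF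
  have hFan : ∀ e' x, At e' x → AnalyticAt ℂ (F e') (e' x) := by
    intro e' x hx
    have h1 : AnalyticAt ℂ (fun z => ∑ j, c j * (s j).coeff e' z) (e' x) := by
      have := Finset.analyticAt_fun_sum Finset.univ (f := fun j z => c j * (s j).coeff e' z)
        (c := e' x) (fun j _ => analyticAt_const.mul ((s j).holo e' x hx))
      simpa using this
    exact h1
  have hFch : ∀ e' e'' x, At e' x → At e'' x →
      F e' (e' x) = F e'' (e'' x) * (jacM e' e'' x).det ^ M := by
    intro e' e'' x h h'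
    simp only [hF]
    rw [Finset.sum_mul]
    refine Finset.sum_congr rfl fun j _ => ?_
    rw [(s j).change e' e'' x h h', mul_assoc]
  have hat : ∀ i, ∀ z ∈ closedBall (ctr i) (r i), At (e i) ((e i).symm z) ∧
      e i ((e i).symm z) = z := fun i z hz =>
    ⟨At.of_target (he i) (hsub i hz), (e i).right_inv (hsub i hz)⟩
  have hFan' : ∀ i, ∀ z ∈ closedBall (ctr i) (r i), AnalyticAt ℂ (F (e i)) z := by
    intro i z hz
    have h1 := hFan (e i) _ (hat i z hz).1
    rwa [(hat i z hz).2] at h1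
  have hjet : ∀ i, ∀ α : Fin n → Fin T, jetL (ctr i) (fun j => (α j : ℕ)) (F (e i)) = 0 := by
    intro i α
    rw [hF, jetL_sum]
    · exact hA (i, α)
    · intro j _
      have hcc : ctr i ∈ closedBall (ctr i) (r i) := mem_closedBall_self (hr i).le
      have h1 := (s j).holo (e i) _ (hat i _ hcc).1
      rwa [(hat i _ hcc).2] at h1
  have hdiff : ∀ i, DifferentiableOn ℂ (F (e i)) (ball (ctr i) (r i)) := fun i z hz =>
    (hFan' i z (ball_subset_closedBall hz)).differentiableAt.differentiableWithinAt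
  have hline := fun i => line_of_jet (M := T) isOpen_ball (mem_ball_self (hr i)) (hdiff i) (hjet i)
  -- the maximum
  have hmain : ∀ i, ∀ z ∈ closedBall (ctr i) (r i), F (e i) z = 0 := by
    rcases Nat.eq_zero_or_pos k₀ with h0 | h0
    · subst h0
      intro i; exact i.elim0
    have hbd : ∀ i, ∃ B : ℝ, ∀ z ∈ closedBall (ctr i) (r i), ‖F (e i) z‖ ≤ B := fun i =>
      (isCompact_closedBall _ _).exists_bound_of_continuousOn fun z hz =>
        (hFan' i z hz).continuousAt.continuousWithinAt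
    have hmax : ∀ i, ∃ z ∈ closedBall (ctr i) (r i), ∀ z' ∈ closedBall (ctr i) (r i),
        ‖F (e i) z'‖ ≤ ‖F (e i) z‖ := fun i => by
      obtain ⟨z, hz, h⟩ := (isCompact_closedBall (ctr i) (r i)).exists_isMaxOn
        ⟨ctr i, mem_closedBall_self (hr i).le⟩ (f := fun z => ‖F (e i) z‖)
        (fun z hz => (hFan' i z hz).continuousAt.norm.continuousWithinAt)
      exact ⟨z, hz, fun z' hz' => h hz'⟩
    choose zm hzm hzmax using hmax
    have hne : (Finset.univ : Finset (Fin k₀)).Nonempty := ⟨⟨0, h0⟩, Finset.mem_univ _⟩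
    obtain ⟨i₀, -, hi₀⟩ := Finset.exists_max_image Finset.univ (fun i => ‖F (e i) (zm i)‖) hne
    set B : ℝ := ‖F (e i₀) (zm i₀)‖ with hB
    have hall : ∀ i, ∀ z ∈ closedBall (ctr i) (r i), ‖F (e i) z‖ ≤ B := fun i z hz =>
      (hzmax i z hz).trans (hi₀ i (Finset.mem_univ i))
    -- the Schwarz lemma
    obtain ⟨hxa, hxe⟩ := hat i₀ _ (hzm i₀)
    set x := (e i₀).symm (zm i₀) with hx
    obtain ⟨j, hj1, hj2⟩ := hcov x
    have hS := schwarz_n (F (e j)) (ctr j) (r j) B T (hr j) (hdiff j)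
      (fun w hw => hall j w (ball_subset_closedBall hw)) (hline j) (e j x)
      (ball_subset_closedBall hj2)
    have hch := hFch (e i₀) (e j) x hxa ⟨he j, hj1⟩
    rw [hxe] at hch
    have hjr : e j x ∈ closedBall (ctr j) (r j) :=
      ball_subset_closedBall ((ball_subset_ball (by have := hr j; linarith)) hj2)
    have hdt : ‖(jacM (e i₀) (e j) x).det‖ ≤ 2 ^ κ :=
      (hK i₀ j x hxa.2 hj1 (by rw [hxe]; exact hzm i₀) hjr).trans (hκ i₀ j)
    have hB1 : B ≤ B * (1 / 2) ^ T * (2 ^ κ) ^ M := by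
      calc B = ‖F (e j) (e j x)‖ * ‖(jacM (e i₀) (e j) x).det‖ ^ M := by
            rw [hB, hch, norm_mul, norm_pow]
        _ ≤ _ := mul_le_mul hS (pow_le_pow_left₀ (norm_nonneg _) hdt M) (by positivity)
            (by positivity)
    have hB2 : (1 / 2 : ℝ) ^ T * (2 ^ κ) ^ M = 1 / 2 := by
      rw [hT, pow_succ, ← pow_mul, one_div, inv_pow]
      field_simp
    have hB0 : 0 ≤ B := norm_nonneg _
    have hB3 : B = 0 := by
      rw [mul_assoc, hB2] at hB1
      linarith
    intro i z hz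
    have := hall i z hz
    rw [hB3] at this
    exact norm_le_zero_iff.1 this
  intro e' x hx
  obtain ⟨j, hj1, hj2⟩ := hcov x
  have h1 := hFch e' (e j) x hx ⟨he j, hj1⟩
  have h2 := hmain j (e j x) (ball_subset_closedBall
    ((ball_subset_ball (by have := hr j; linarith)) hj2))
  rw [h2, zero_mul] at h1
  exact h1

/-! ### the space of sections, as a space of functions on `Z` -/

section space
omit [IsManifold 𝓘(ℂ, Cm n) ω Z]
variable (n Z) in
/-- the space `H⁰(Z, K_Z^M)`, realised as the space of the values in the preferred charts -/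
def PV (M : ℕ) : Submodule ℂ (Z → ℂ) where
  carrier := {g | ∃ s : PSec n M Z, ∀ x, g x = s.val x}
  add_mem' := by
    rintro g h ⟨s, hs⟩ ⟨t, ht⟩
    exact ⟨s + t, fun x => by
      rw [Pi.add_apply, hs, ht]; rfl⟩
  zero_mem' := ⟨0, fun x => rfl⟩
  smul_mem' := by
    rintro a g ⟨s, hs⟩
    exact ⟨a • s, fun x => by
      rw [Pi.smul_apply, hs]; rfl⟩

lemma val_mem_PV {M : ℕ} (s : PSec n M Z) : s.val ∈ PV n Z M := ⟨s, fun _ => rfl⟩

lemma coeff_eq_val {M : ℕ} (s : PSec n M Z) {e : Chart n Z} {x : Z} (h : At e x) :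
    s.coeff e (e x) = s.val x * (jacM e (chartAt (Cm n) x) x).det ^ M :=
  s.change e _ x h (at_chartAt x)

end space

theorem finrank_PV_le [T2Space Z] [CompactSpace Z] : ∃ C : ℕ, ∀ M : ℕ,
    FiniteDimensional ℂ (PV n Z M) ∧ Module.finrank ℂ (PV n Z M) ≤ C * (M + 1) ^ n := by
  classical
  obtain ⟨C, hC⟩ := dim_fam (n := n) (Z := Z)
  refine ⟨C, fun M => ?_⟩
  have hr : Module.rank ℂ (PV n Z M) ≤ (C * (M + 1) ^ n : ℕ) := by
    refine rank_le fun S hS => ?_
    by_contra hlt
    rw [not_le] at hlt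
    let f := S.equivFin.symm
    have hex : ∀ g : PV n Z M, ∃ s : PSec n M Z, ∀ x, (g : Z → ℂ) x = s.val x := fun g => g.2
    choose s hs using hex
    obtain ⟨c, hc, h0⟩ := hC M S.card (fun j => s (f j : PV n Z M)) hlt
    apply hc
    have h1 : ∑ j, c j • ((f j : PV n Z M)) = 0 := by
      ext x
      have h2 := h0 _ x (at_chartAt x)
      simp only [Submodule.coe_sum, Submodule.coe_smul, Finset.sum_apply, Pi.smul_apply,
        smul_eq_mul, ZeroMemClass.coe_zero, Pi.zero_apply]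
      rw [← h2]
      exact Finset.sum_congr rfl fun j _ => by rw [hs]; rfl
    have h3 : LinearIndependent ℂ fun j : Fin S.card => ((f j : S) : PV n Z M) :=
      hS.comp f f.injective
    funext j
    exact (Fintype.linearIndependent_iff.1 h3 c h1) j
  have hfin : Module.rank ℂ (PV n Z M) < Cardinal.aleph0 :=
    lt_of_le_of_lt hr (Cardinal.natCast_lt_aleph0)
  haveI : Module.Finite ℂ (PV n Z M) := Module.rank_lt_aleph0_iff.1 hfin
  refine ⟨this, ?_⟩
  exact Module.finrank_le_of_rank_le hr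

end Vale.Agent.P284.H213.KL
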