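import Vale.Agent.P272.KOD.Step

/-!
# P284 (helper213): the key approximation for smooth metrics, with constants depending only on the
cover and on `m lam`
-/

open scoped Manifold ContDiff ComplexOrder Topology ENNReal ComplexConjugate
open MeasureTheory Filter Set Metric

set_option linter.all false

noncomputable section

namespace Vale.Agent.P284.H213.KL

open Vale.Agent.P272.K Vale.Agent.P272.KOD

section
variable {n : ℕ} {X : Type*} [TopologicalSpace X] [ChartedSpace (Cm n) X]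
  [IsManifold 𝓘(ℂ, Cm n) ω X]

/-- The estimates for the glued section, with a constant which does not depend on the metric. -/
theorem step_glue_unif [T2Space X] (C : PCov n X) : ∃ B : ℝ, 0 ≤ B ∧
      ∀ (φ : Chart n X → Cm n → ℝ) (hφ : IsCanonicalMetric φ) (m : ℕ) (σ : SSec n m X)
      (F : Fin C.N → Cm n → ℂ) (hF : ∀ i, DifferentiableOn ℂ (F i) (C.V i)) (A : ℝ), 0 ≤ A →
      (∀ i, nrm n m (φ (C.e i)) (C.V i) (fun z => F i z - σ.coeff (C.e i) z) ≤
        ENNReal.ofReal A) →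
      (∀ i, nrm n m (φ (C.e i)) (C.V i) (fun z => (glue m C F hF).coeff (C.e i) z -
        σ.coeff (C.e i) z) ≤ ENNReal.ofReal (B * A)) ∧
      (∀ i, dnrm n m (φ (C.e i)) (C.V i) ((glue m C F hF).coeff (C.e i)) ≤
        ENNReal.ofReal (B * A)) := by
  classical
  have hcl : ∀ i, closure (C.V i) ⊆ Metric.closedBall (C.c i) (C.r i) := fun i =>
    Metric.closure_ball_subset_closedBall
  obtain ⟨K, hK, -, hcmp⟩ := cmp (e := C.e) (V := C.V) C.mem C.isOpen_V
    (fun i => (isCompact_closedBall (C.c i) (C.r i)).of_isClosed_subset isClosed_closure (hcl i))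
    (fun i => (hcl i).trans (C.sub i))
  obtain ⟨M, hM0, hM⟩ := exists_M C
  set k : ℝ := K.toReal with hk
  have hk0 : 0 ≤ k := ENNReal.toReal_nonneg
  have hKk : K = ENNReal.ofReal k := (ENNReal.ofReal_toReal hK).symm
  set B : ℝ := C.N * k + (n * C.N * M ^ 2) * (C.N * k) with hB
  refine ⟨B, by positivity, fun φ hφ m σ F hF A hA hn => ?_⟩
  have hint : ∀ i, ∫⁻ z in C.V i, ENNReal.ofReal (∑ j, if (C.e i).symm z ∈ C.D j then
      gden C φ σ F j ((C.e i).symm z) else 0) ≤ ENNReal.ofReal (C.N * k * A) := by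
    intro i
    refine (int_le C hφ hcmp σ F hF i).trans ?_
    calc ∑ j, K * nrm n m (φ (C.e j)) (C.V j) (fun z => F j z - σ.coeff (C.e j) z)
        ≤ ∑ j : Fin C.N, K * ENNReal.ofReal A := by
          refine Finset.sum_le_sum fun j _ => ?_
          gcongr
          exact hn j
      _ = ENNReal.ofReal (C.N * k * A) := by
          rw [Finset.sum_const, Finset.card_univ, Fintype.card_fin, nsmul_eq_mul, hKk,
            ← ENNReal.ofReal_mul hk0, ← ENNReal.ofReal_natCast,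
            ← ENNReal.ofReal_mul (by positivity), mul_assoc]
  constructor
  · intro i
    unfold nrm
    refine le_trans (setLIntegral_mono' (C.isOpen_V i).measurableSet fun z hz => ?_)
      ((hint i).trans (ENNReal.ofReal_le_ofReal ?_))
    · have h := glue_pt C hφ σ F (PCov.at_V hz)
      rw [(C.e i).right_inv (PCov.V_target hz)] at h
      exact ENNReal.ofReal_le_ofReal h
    · rw [hB]
      have : 0 ≤ (n * C.N * M ^ 2) * (C.N * k) * A := by positivity
      nlinarith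
  · intro i
    unfold dnrm
    calc ∫⁻ z in C.V i, ENNReal.ofReal ((∑ l, ‖dzb l ((glue m C F hF).coeff (C.e i)) z‖ ^ 2) *
          Real.exp (-(m : ℝ) * φ (C.e i) z))
        ≤ ∫⁻ z in C.V i, ENNReal.ofReal (n * C.N * M ^ 2) *
          ENNReal.ofReal (∑ j, if (C.e i).symm z ∈ C.D j then
            gden C φ σ F j ((C.e i).symm z) else 0) := by
          refine setLIntegral_mono' (C.isOpen_V i).measurableSet fun z hz => ?_
          rw [← ENNReal.ofReal_mul (by positivity)]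
          have h := dzb_glue_pt C hφ σ F hF (PCov.at_V hz) (M := M) (fun j l => by
            rw [(C.e i).right_inv (PCov.V_target hz)]
            exact hM i j l z hz)
          rw [(C.e i).right_inv (PCov.V_target hz)] at h
          exact ENNReal.ofReal_le_ofReal h
      _ ≤ ENNReal.ofReal (n * C.N * M ^ 2) * ENNReal.ofReal (C.N * k * A) := by
          rw [lintegral_const_mul' _ _ ENNReal.ofReal_ne_top]
          gcongr
          exact hint i
      _ ≤ ENNReal.ofReal (B * A) := by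
          rw [← ENNReal.ofReal_mul (by positivity)]
          refine ENNReal.ofReal_le_ofReal ?_
          rw [hB]
          have : 0 ≤ C.N * k * A := by positivity
          nlinarith

end

section
variable {n : ℕ} {X : Type} [TopologicalSpace X] [ChartedSpace (Cm n) X]
  [IsManifold 𝓘(ℂ, Cm n) ω X]

/-- One averaging step. -/
theorem step_unif [T2Space X] (C : PCov n X) : ∃ B : ℝ, 0 ≤ B ∧
    ∀ (φ : Chart n X → Cm n → ℝ) (hφ : IsCanonicalMetric φ) (lam : ℝ) (hP : C.Pos φ lam)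
    (m : ℕ), 1 ≤ m → ∀ σ : SSec n m X, ∀ A : ℝ, 0 ≤ A →
      (∀ i, dnrm n m (φ (C.e i)) (C.V i) (σ.coeff (C.e i)) ≤ ENNReal.ofReal A) →
      ∃ (F : Fin C.N → Cm n → ℂ) (τ : SSec n m X),
        (∀ i, DifferentiableOn ℂ (F i) (C.V i)) ∧
        (∀ i, nrm n m (φ (C.e i)) (C.V i) (fun z => F i z - σ.coeff (C.e i) z) ≤
          ENNReal.ofReal (B / (m * lam) * A)) ∧
        (∀ i, nrm n m (φ (C.e i)) (C.V i) (fun z => τ.coeff (C.e i) z - σ.coeff (C.e i) z) ≤
          ENNReal.ofReal (B / (m * lam) * A)) ∧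
        (∀ i, dnrm n m (φ (C.e i)) (C.V i) (τ.coeff (C.e i)) ≤
          ENNReal.ofReal (B / (m * lam) * A)) := by
  obtain ⟨B, hB, hstep⟩ := step_glue_unif C
  refine ⟨2 + B * 2, by positivity, fun φ hφ lam hP m hm σ A hA hd => ?_⟩
  obtain ⟨hlam, hpos⟩ := hP
  have hm0 : (0 : ℝ) < m := by exact_mod_cast hm
  have hφ2 : ∀ i, ∀ z ∈ Metric.closedBall (C.c i) (C.r i), ContDiffAt ℝ 2 (φ (C.e i)) z := by
    intro i z hz
    have h := hφ.smooth _ _ (At.of_target (C.mem i) (C.sub i hz))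
    rw [(C.e i).right_inv (C.sub i hz)] at h
    exact h.of_le (by norm_cast)
  have hs2 : ∀ i, ∀ z ∈ Metric.closedBall (C.c i) (C.r i),
      ContDiffAt ℝ 2 (σ.coeff (C.e i)) z := by
    intro i z hz
    have h := σ.smooth _ _ (At.of_target (C.mem i) (C.sub i hz))
    rw [(C.e i).right_inv (C.sub i hz)] at h
    exact h.of_le (by norm_cast)
  have hex : ∀ i, ∃ F : Cm n → ℂ, DifferentiableOn ℂ F (C.V i) ∧
      nrm n m (φ (C.e i)) (C.V i) (fun z => F z - σ.coeff (C.e i) z) ≤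
        ENNReal.ofReal (2 / ((m : ℝ) * lam) * A) := fun i =>
    loc_nrm (C.pos i) (hφ2 i) hlam (hpos i) hm (hs2 i) hA (hd i)
  choose F hF hn using hex
  have hA' : 0 ≤ 2 / ((m : ℝ) * lam) * A := by positivity
  obtain ⟨h1, h2⟩ := hstep φ hφ m σ F hF _ hA' hn
  have e0 : (2 + B * 2) / (m * lam) * A =
        2 / ((m : ℝ) * lam) * A + B * (2 / ((m : ℝ) * lam) * A) := by
      field_simp
  have e1 : 2 / ((m : ℝ) * lam) * A ≤ (2 + B * 2) / (m * lam) * A := by
    rw [e0]
    have : 0 ≤ B * (2 / ((m : ℝ) * lam) * A) := by positivity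
    linarith
  have e2 : B * (2 / ((m : ℝ) * lam) * A) ≤ (2 + B * 2) / (m * lam) * A := by
    rw [e0]
    linarith
  exact ⟨F, glue m C F hF, hF, fun i => (hn i).trans (ENNReal.ofReal_le_ofReal e1),
    fun i => (h1 i).trans (ENNReal.ofReal_le_ofReal e2),
    fun i => (h2 i).trans (ENNReal.ofReal_le_ofReal e2)⟩

/-- **The key estimate for smooth metrics**, with uniform constants. -/
theorem key_unif [T2Space X] [CompactSpace X] (C : PCov n X) : ∃ B : ℝ, 0 ≤ B ∧
    ∀ (φ : Chart n X → Cm n → ℝ) (hφ : IsCanonicalMetric φ) (lam : ℝ) (hP : C.Pos φ lam)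
    (m : ℕ), 1 ≤ m → B ≤ m * lam → ∀ σ : SSec n m X, ∃ s : PSec n m X, ∀ i,
      nrm n m (φ (C.e i)) (C.V i) (fun z => σ.coeff (C.e i) z - s.coeff (C.e i) z) ≤
        ENNReal.ofReal 4 * ∑ j, dnrm n m (φ (C.e j)) (C.V j) (σ.coeff (C.e j)) := by
  obtain ⟨B, hB, hstep⟩ := step_unif C
  refine ⟨4 * B, by positivity, fun φ hφ lam hP m hm1 hml σ => ?_⟩
  have hlam := hP.1
  have hclos : ∀ i, closure (C.V i) ⊆ closedBall (C.c i) (C.r i) := fun i =>
    closure_ball_subset_closedBall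
  have hcov : ∀ x : X, ∃ i, x ∈ (C.e i).source ∧ C.e i x ∈ C.V i := by
    intro x
    have h1 : ∃ i, C.χ i x ≠ 0 := by
      by_contra h
      simp only [not_exists, not_not] at h
      have h2 := C.sum_one x
      simp [h] at h2
    obtain ⟨i, hi⟩ := h1
    exact ⟨i, (C.supp i x hi).1, C.K_sub i (C.supp i x hi).2⟩
  have hm0 : (0 : ℝ) < m := by exact_mod_cast hm1
  have hBm : B / (m * lam) ≤ 1 / 4 := by
    rw [div_le_iff₀ (by positivity)]
    linarith
  have hBm0 : 0 ≤ B / (m * lam) := by positivity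
  set A : ℝ := (∑ j, dnrm n m (φ (C.e j)) (C.V j) (σ.coeff (C.e j))).toReal with hA
  have hA0 : 0 ≤ A := ENNReal.toReal_nonneg
  have htop : (∑ j, dnrm n m (φ (C.e j)) (C.V j) (σ.coeff (C.e j))) ≠ ⊤ := by
    rw [ENNReal.sum_ne_top]
    exact fun j _ => dnrm_ne_top hφ σ (C.mem j) (C.sub j)
  have hAe : ENNReal.ofReal A = ∑ j, dnrm n m (φ (C.e j)) (C.V j) (σ.coeff (C.e j)) :=
    ENNReal.ofReal_toReal htop
  -- the iteration
  have hstep' : ∀ (k : ℕ) (τ : SSec n m X),
      (∀ i, dnrm n m (φ (C.e i)) (C.V i) (τ.coeff (C.e i)) ≤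
        ENNReal.ofReal (A * (1 / 4) ^ k)) →
      ∃ (F : Fin C.N → Cm n → ℂ) (τ' : SSec n m X),
        (∀ i, DifferentiableOn ℂ (F i) (C.V i)) ∧
        (∀ i, nrm n m (φ (C.e i)) (C.V i) (fun z => F i z - τ.coeff (C.e i) z) ≤
          ENNReal.ofReal (A / 4 * (1 / 4) ^ k)) ∧
        (∀ i, nrm n m (φ (C.e i)) (C.V i) (fun z => τ'.coeff (C.e i) z - τ.coeff (C.e i) z) ≤
          ENNReal.ofReal (A / 4 * (1 / 4) ^ k)) ∧
        (∀ i, dnrm n m (φ (C.e i)) (C.V i) (τ'.coeff (C.e i)) ≤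
          ENNReal.ofReal (A * (1 / 4) ^ (k + 1))) := by
    intro k τ hτ
    obtain ⟨F, τ', h1, h2, h3, h4⟩ := hstep φ hφ lam hP m hm1 τ (A * (1 / 4) ^ k)
      (by positivity) hτ
    have h5 : B / (m * lam) * (A * (1 / 4) ^ k) ≤ A / 4 * (1 / 4) ^ k := by
      have h6 : 0 ≤ A * (1 / 4 : ℝ) ^ k := by positivity
      calc B / (m * lam) * (A * (1 / 4) ^ k) ≤ 1 / 4 * (A * (1 / 4) ^ k) :=
            mul_le_mul_of_nonneg_right hBm h6
        _ = A / 4 * (1 / 4) ^ k := by ring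
    have h7 : A / 4 * (1 / 4) ^ k = A * (1 / 4) ^ (k + 1) := by ring
    refine ⟨F, τ', h1, fun i => (h2 i).trans (ENNReal.ofReal_le_ofReal h5),
      fun i => (h3 i).trans (ENNReal.ofReal_le_ofReal h5), fun i => ?_⟩
    rw [← h7]
    exact (h4 i).trans (ENNReal.ofReal_le_ofReal h5)
  choose F τ' hF h1 h2 h3 using hstep'
  let seq : (k : ℕ) → {τ : SSec n m X // ∀ i, dnrm n m (φ (C.e i)) (C.V i) (τ.coeff (C.e i)) ≤
      ENNReal.ofReal (A * (1 / 4) ^ k)} := fun k => Nat.rec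
    ⟨σ, fun i => by
      rw [pow_zero, mul_one, hAe]
      exact Finset.single_le_sum (f := fun j => dnrm n m (φ (C.e j)) (C.V j) (σ.coeff (C.e j)))
        (fun _ _ => zero_le) (Finset.mem_univ i)⟩
    (fun k s => ⟨τ' k s.1 s.2, h3 k s.1 s.2⟩) k
  obtain ⟨s, hs⟩ := Lim.lim_psec C.e C.mem C.V (fun i => isOpen_ball)
    (fun i => (isCompact_closedBall _ _).of_isClosed_subset isClosed_closure (hclos i))
    (fun i => (hclos i).trans (C.sub i)) hcov
    hφ m (fun k => (seq k).1) (fun k => F k (seq k).1 (seq k).2)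
    (fun k i => hF k _ _ i) (A := A / 4) (q := 1 / 4) (by positivity) (by norm_num) (by norm_num)
    (fun k i => h1 k _ _ i) (fun k i => h2 k (seq k).1 (seq k).2 i)
  refine ⟨s, fun i => (hs i).trans ?_⟩
  rw [← hAe, ← ENNReal.ofReal_mul (by norm_num)]
  refine ENNReal.ofReal_le_ofReal (le_of_eq ?_)
  have h4 : Real.sqrt (1 / 4) = 1 / 2 := by
    rw [show (1 / 4 : ℝ) = (1 / 2) ^ 2 by norm_num, Real.sqrt_sq (by norm_num)]
  rw [h4]
  ring

end

end Vale.Agent.P284.H213.KL
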