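import Vale.Agent.P272.KOD.Lim
import Vale.Agent.P299.H720.Montel

/-!
# P284 (helper213): holomorphic sections of `K_X^m` from local pieces; compactness
-/

open scoped Manifold ContDiff ComplexOrder Topology ENNReal ComplexConjugate
open MeasureTheory Filter Set Metric

set_option linter.all false

noncomputable section

namespace Vale.Agent.P284.H213.KL

open Vale.Agent.P272.K Vale.Agent.P272.KOD

variable {n m : ℕ} {X : Type*} [TopologicalSpace X] [ChartedSpace (Cm n) X]
  [IsManifold 𝓘(ℂ, Cm n) ω X]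

/-- a holomorphic section from compatible local pieces -/
theorem psec_of_local {ι : Type*} (e : ι → Chart n X) (he : ∀ i, e i ∈ atlas (Cm n) X)
    (V : ι → Set (Cm n)) (hV : ∀ i, IsOpen (V i)) (hVt : ∀ i, V i ⊆ (e i).target)
    (hcov : ∀ x : X, ∃ i, x ∈ (e i).source ∧ e i x ∈ V i)
    (G : ι → Cm n → ℂ) (hG : ∀ i, DifferentiableOn ℂ (G i) (V i))
    (hcomp : ∀ i j x, x ∈ (e i).source → e i x ∈ V i → x ∈ (e j).source → e j x ∈ V j →
      G i (e i x) = G j (e j x) * (jacM (e i) (e j) x).det ^ m) :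
    ∃ s : PSec n m X, ∀ i, ∀ z ∈ V i, s.coeff (e i) z = G i z := by
  choose idx hidx1 hidx2 using hcov
  set s : Chart n X → Cm n → ℂ := fun e' z => G (idx (e'.symm z)) (e (idx (e'.symm z)) (e'.symm z)) *
    (jacM e' (e (idx (e'.symm z))) (e'.symm z)).det ^ m with hs
  have hsx : ∀ (e' : Chart n X) x, At e' x → ∀ i, x ∈ (e i).source → e i x ∈ V i →
      s e' (e' x) = G i (e i x) * (jacM e' (e i) x).det ^ m := by
    intro e' x hx i hxi hxV
    simp only [hs]
    rw [e'.left_inv hx.2, hcomp (idx x) i x (hidx1 x) (hidx2 x) hxi hxV,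
      jacM_comp hx (⟨he _, hidx1 x⟩ : At (e (idx x)) x) (⟨he i, hxi⟩ : At (e i) x),
      Matrix.det_mul, mul_pow]
    ring
  have hchange : ∀ (e' e'' : Chart n X) x, At e' x → At e'' x →
      s e' (e' x) = s e'' (e'' x) * (jacM e' e'' x).det ^ m := by
    intro e' e'' x hx hx'
    rw [hsx e' x hx (idx x) (hidx1 x) (hidx2 x), hsx e'' x hx' (idx x) (hidx1 x) (hidx2 x),
      jacM_comp hx hx' (⟨he _, hidx1 x⟩ : At (e (idx x)) x), Matrix.det_mul, mul_pow]
    ring
  have hdiff : ∀ e' ∈ atlas (Cm n) X, DifferentiableOn ℂ (s e') e'.target := by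
    intro e' he' z hz
    set x := e'.symm z with hx
    have hAt : At e' x := At.of_target he' hz
    have hzx : e' x = z := e'.right_inv hz
    have hAi : At (e (idx x)) x := ⟨he _, hidx1 x⟩
    have hτ := transition_differentiableAt hAt hAi
    have hJ := (jacM_det_holo hAt hAi).differentiableAt (by simp)
    rw [hzx] at hτ hJ
    have hGd : DifferentiableAt ℂ (fun z => G (idx x) (e (idx x) (e'.symm z))) z := by
      have h6 : DifferentiableAt ℂ (G (idx x)) (e (idx x) (e'.symm z)) := by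
        rw [← hx]
        exact (hG _).differentiableAt ((hV _).mem_nhds (hidx2 x))
      exact h6.comp z hτ
    have hd := hGd.mul (hJ.pow m)
    refine (hd.congr_of_eventuallyEq ?_).differentiableWithinAt
    have hcont : ContinuousAt e'.symm z := e'.continuousAt_symm hz
    have hn : (e (idx x)).source ∩ (e (idx x)) ⁻¹' (V (idx x)) ∈ 𝓝 (e'.symm z) := by
      rw [← hx]
      exact ((e (idx x)).isOpen_inter_preimage (hV _)).mem_nhds ⟨hidx1 x, hidx2 x⟩
    filter_upwards [hcont.preimage_mem_nhds hn, e'.open_target.mem_nhds hz] with w hw hw'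
    have h7 := hsx e' (e'.symm w) (At.of_target he' hw') (idx x) hw.1 hw.2
    rw [e'.right_inv hw'] at h7
    exact h7
  refine ⟨⟨s, fun e' x hx => Vale.Agent.P268.analyticAt_of_differentiableOn e'.open_target
    (hdiff e' hx.1) (e'.map_source hx.2), hchange⟩, fun i z hz => ?_⟩
  have h6 : At (e i) ((e i).symm z) := At.of_target (he i) (hVt i hz)
  have h7 := hsx (e i) ((e i).symm z) h6 i h6.2 (by rw [(e i).right_inv (hVt i hz)]; exact hz)
  rw [jacM_self h6, (e i).right_inv (hVt i hz)] at h7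
  show s (e i) z = G i z
  rw [h7]
  simp

/-- extraction of a sequence from an ultrafilter limit: if `f_k → g` locally uniformly on the balls
`ball (c i) (r i)`, `i` in a finite set, along a non principal ultrafilter on `ℕ`, then a
subsequence converges pointwise. -/
lemma extract {ι : Type*} [Finite ι] (𝒰 : Ultrafilter ℕ) (h𝒰 : (𝒰 : Filter ℕ) ≤ atTop)
    (c : ι → Cm n) (r : ι → ℝ) {f : ℕ → ι → Cm n → ℂ} {g : ι → Cm n → ℂ}
    (h : ∀ i, TendstoLocallyUniformlyOn (fun k => f k i) (g i) 𝒰 (ball (c i) (r i))) :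
    ∃ κ : ℕ → ℕ, (∀ j, j ≤ κ j) ∧ ∀ i, ∀ z ∈ ball (c i) (r i),
      Tendsto (fun j => f (κ j) i z) atTop (𝓝 (g i z)) := by
  have h1 : ∀ j : ℕ, ∃ k, j ≤ k ∧ ∀ i, ∀ z ∈ closedBall (c i) (r i - 1 / (j + 1)),
      dist (g i z) (f k i z) < 1 / (j + 1) := by
    intro j
    have hj : (0 : ℝ) < 1 / (j + 1) := by positivity
    have h2 : ∀ i, ∀ᶠ k in (𝒰 : Filter ℕ), ∀ z ∈ closedBall (c i) (r i - 1 / (j + 1)),
        dist (g i z) (f k i z) < 1 / (j + 1) := by
      intro i
      have h3 := (tendstoLocallyUniformlyOn_iff_forall_isCompact isOpen_ball).1 (h i)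
        (closedBall (c i) (r i - 1 / (j + 1))) (closedBall_subset_ball (by linarith))
        (isCompact_closedBall _ _)
      exact Metric.tendstoUniformlyOn_iff.1 h3 _ hj
    have h3 : ∀ᶠ k in (𝒰 : Filter ℕ), j ≤ k := h𝒰 (eventually_ge_atTop j)
    obtain ⟨k, hk⟩ := (h3.and (eventually_all.2 h2)).exists
    exact ⟨k, hk.1, hk.2⟩
  choose κ hκ1 hκ2 using h1
  refine ⟨κ, hκ1, fun i z hz => ?_⟩
  rw [Metric.tendsto_atTop]
  intro ε hε
  have hd : 0 < r i - dist z (c i) := by rw [mem_ball] at hz; linarith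
  obtain ⟨j₁, hj₁⟩ := exists_nat_one_div_lt hd
  obtain ⟨j₂, hj₂⟩ := exists_nat_one_div_lt hε
  refine ⟨max j₁ j₂, fun j hj => ?_⟩
  have e1 : 1 / ((j : ℝ) + 1) ≤ 1 / ((j₁ : ℝ) + 1) := by
    have : (j₁ : ℝ) ≤ j := by exact_mod_cast (le_max_left _ _).trans hj
    exact one_div_le_one_div_of_le (by positivity) (by linarith)
  have e2 : 1 / ((j : ℝ) + 1) ≤ 1 / ((j₂ : ℝ) + 1) := by
    have : (j₂ : ℝ) ≤ j := by exact_mod_cast (le_max_right _ _).trans hj
    exact one_div_le_one_div_of_le (by positivity) (by linarith)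
  rw [dist_comm]
  exact (hκ2 j i z (by rw [mem_closedBall]; linarith)).trans (by linarith)

/-- **Compactness** of sequences of holomorphic sections which are bounded in `L²` on the balls of a
finite cover: a subsequence converges pointwise to a holomorphic section. -/
theorem psec_compact {ι : Type*} [Finite ι] (e : ι → Chart n X) (he : ∀ i, e i ∈ atlas (Cm n) X)
    (c : ι → Cm n) (r : ι → ℝ) (hVt : ∀ i, ball (c i) (r i) ⊆ (e i).target)
    (hcov : ∀ x : X, ∃ i, x ∈ (e i).source ∧ e i x ∈ ball (c i) (r i))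
    (s : ℕ → PSec n m X) {B : ℝ≥0∞} (hB : B ≠ ⊤)
    (hs : ∀ k i, Lim.wn (ball (c i) (r i)) (fun _ => 0) ((s k).coeff (e i)) ≤ B) :
    ∃ (κ : ℕ → ℕ) (t : PSec n m X), (∀ j, j ≤ κ j) ∧ ∀ i, ∀ z ∈ ball (c i) (r i),
      Tendsto (fun j => (s (κ j)).coeff (e i) z) atTop (𝓝 (t.coeff (e i) z)) := by
  have hdiff : ∀ k i, DifferentiableOn ℂ ((s k).coeff (e i)) (ball (c i) (r i)) := by
    intro k i z hz
    have h1 : At (e i) ((e i).symm z) := At.of_target (he i) (hVt i hz)
    have h2 := (s k).holo (e i) _ h1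
    rw [(e i).right_inv (hVt i hz)] at h2
    exact h2.differentiableAt.differentiableWithinAt
  set 𝒰 : Ultrafilter ℕ := hyperfilter ℕ with h𝒰
  have h𝒰' : (𝒰 : Filter ℕ) ≤ atTop := by
    rw [h𝒰]
    exact Nat.hyperfilter_le_atTop
  have hLB : ∀ i, Vale.Agent.P299.H720.LocBdd (𝒰 : Filter ℕ) (fun k => (s k).coeff (e i))
      (ball (c i) (r i)) := by
    intro i x hx
    obtain ⟨ρ, hρ, hρV⟩ := Metric.isOpen_iff.1 isOpen_ball x hx
    obtain ⟨C, hC, hCb⟩ := Lim.enorm_le_wn (V := ball (c i) (r i)) isOpen_ball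
      (ψ := fun _ => 0) (B := 0) (fun _ _ => le_rfl) (ρ := ρ / 2) (by positivity)
    refine ⟨ρ / 2, by positivity, C * B.toReal, Eventually.of_forall fun k => ⟨?_, fun y hy => ?_⟩⟩
    · exact (hdiff k i).mono ((ball_subset_ball (by linarith)).trans hρV)
    · have hsub : ball y (ρ / 2) ⊆ ball (c i) (r i) := by
        refine Subset.trans (ball_subset_ball' ?_) hρV
        rw [mem_ball] at hy
        linarith
      have h1 := hCb y hsub _ (hdiff k i)
      have h2 := h1.trans (mul_le_mul_right (hs k i) _)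
      rw [← ENNReal.ofReal_toReal hB, ← ENNReal.ofReal_mul hC, ← ofReal_norm] at h2
      exact (ENNReal.ofReal_le_ofReal_iff (by positivity)).1 h2
  have h1 : ∀ i, ∃ g : Cm n → ℂ, DifferentiableOn ℂ g (ball (c i) (r i)) ∧
      TendstoLocallyUniformlyOn (fun k => (s k).coeff (e i)) g (𝒰 : Filter ℕ)
        (ball (c i) (r i)) := fun i => by
    obtain ⟨g, h2, h3, -⟩ := Vale.Agent.P299.H720.montel_full 𝒰 isOpen_ball (hLB i)
    exact ⟨g, h2, h3⟩
  choose g hg hlim using h1
  obtain ⟨κ, hκ, hpt⟩ := extract 𝒰 h𝒰' c r (f := fun k i => (s k).coeff (e i)) hlim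
  obtain ⟨t, ht⟩ := psec_of_local (m := m) e he (fun i => ball (c i) (r i)) (fun i => isOpen_ball)
    hVt hcov g hg (by
      intro i j x hxi hxVi hxj hxVj
      have h2 := hpt i _ hxVi
      have h3 := (hpt j _ hxVj).mul_const ((jacM (e i) (e j) x).det ^ m)
      refine tendsto_nhds_unique h2 (h3.congr fun k => ?_)
      exact ((s (κ k)).change (e i) (e j) x ⟨he i, hxi⟩ ⟨he j, hxj⟩).symm)
  refine ⟨κ, t, hκ, fun i z hz => ?_⟩
  rw [ht i z hz]
  exact hpt i z hz

end Vale.Agent.P284.H213.KL
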