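import Vale.Agent.P284.H213.KL.SK2
import Vale.Agent.P284.H213.KL.SK3
import Vale.Agent.P284.H213.KL.SK4

/-!
# P284 (helper213): the key approximation for the singular weights `a log N + b w`
-/

open scoped Manifold ContDiff ComplexOrder Topology ENNReal ComplexConjugate
open MeasureTheory Filter Set Metric

set_option linter.all false

noncomputable section

namespace Vale.Agent.P284.H213.KL

open Vale.Agent.P272.K Vale.Agent.P272.KOD Vale.Agent.P284.H812

section
variable {n m : ℕ} {Z : Type*} [TopologicalSpace Z] [ChartedSpace (Cm n) Z]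
  {H : Type*} [NormedAddCommGroup H] [InnerProductSpace ℂ H] [CompleteSpace H]
  {N w : Chart n Z → Cm n → ℝ}

lemma exp_wt (a : ℕ) {b : ℕ} (hb : 1 ≤ b) {δ : ℝ} {e : Chart n Z} {z : Cm n}
    (h : 0 < regN m δ N w e z) :
    Real.exp (-((m * a + b : ℕ) : ℝ) * wt m a b δ N w e z) =
      (regN m δ N w e z)⁻¹ ^ a * Real.exp (-(b : ℝ) * w e z) := by
  have h0 : ((m * a + b : ℕ) : ℝ) ≠ 0 := by
    have : 0 < m * a + b := by positivity
    exact_mod_cast this.ne'
  have h1 : -((m * a + b : ℕ) : ℝ) * wt m a b δ N w e z =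
      -((a : ℝ) * Real.log (regN m δ N w e z)) + -(b : ℝ) * w e z := by
    unfold wt
    field_simp
    ring
  rw [h1, Real.exp_add, Real.exp_neg, ← Real.log_pow, Real.exp_log (pow_pos h a), inv_pow]

lemma ofReal_wt (a : ℕ) {b : ℕ} (hb : 1 ≤ b) {δ : ℝ} {e : Chart n Z} {z : Cm n}
    (h : 0 < regN m δ N w e z) {D : ℝ} (hD : 0 ≤ D) :
    ENNReal.ofReal (D * Real.exp (-((m * a + b : ℕ) : ℝ) * wt m a b δ N w e z)) =
      ENNReal.ofReal (D * Real.exp (-(b : ℝ) * w e z)) *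
        (ENNReal.ofReal (regN m δ N w e z))⁻¹ ^ a := by
  rw [exp_wt a hb h]
  have h1 : D * ((regN m δ N w e z)⁻¹ ^ a * Real.exp (-(b : ℝ) * w e z)) =
      (D * Real.exp (-(b : ℝ) * w e z)) * (regN m δ N w e z)⁻¹ ^ a := by ring
  rw [h1, ENNReal.ofReal_mul (by positivity), ENNReal.ofReal_pow (by positivity),
    ENNReal.ofReal_inv_of_pos h]

end

/-- the pointwise Fatou inequality -/
lemma mul_le_liminf {A B : ℝ≥0∞} {f g : ℕ → ℝ≥0∞} (hA : A ≠ ⊤) (hf : Tendsto f atTop (𝓝 A))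
    (hg : Tendsto g atTop (𝓝 B)) : A * B ≤ liminf (fun k => f k * g k) atTop := by
  by_cases h : A = 0
  · rw [h, zero_mul]; exact zero_le
  · exact (ENNReal.Tendsto.mul hf (Or.inl h) hg (Or.inr hA)).liminf_eq.ge

theorem skey' {n m : ℕ} {Z : Type} [TopologicalSpace Z] [T2Space Z] [CompactSpace Z]
    [ChartedSpace (Cm n) Z] [IsManifold 𝓘(ℂ, Cm n) ω Z]
    {w : Chart n Z → Cm n → ℝ} (hw : IsCanonicalMetric w)
    (hpos : ∀ e x, At e x → (cHess (w e) (e x)).PosDef)
    {H : Type*} [NormedAddCommGroup H] [InnerProductSpace ℂ H] [CompleteSpace H]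
    {N : Chart n Z → Cm n → ℝ} (hN : HMet n m Z H N) :
    ∃ (C : PCov n Z) (b₀ : ℕ), 1 ≤ b₀ ∧ ∀ a b : ℕ, b₀ ≤ b → ∀ σ : SSec n (m * a + b) Z,
      ∃ s : PSec n (m * a + b) Z, ∀ i,
        snrm a b (N (C.e i)) (w (C.e i)) (C.V i)
            (fun z => σ.coeff (C.e i) z - s.coeff (C.e i) z) ≤
          4 * ∑ j, sdnrm a b (N (C.e j)) (w (C.e j)) (C.V j) (σ.coeff (C.e j)) := by
  obtain ⟨C, lam, hP⟩ := exists_pcov hw hpos
  obtain ⟨B, hB, hkey⟩ := key_unif C
  obtain ⟨b₁, hb₁⟩ := exists_nat_ge (B / lam)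
  have hlam := hP.1
  refine ⟨C, max b₁ 1, le_max_right _ _, fun a b hb => ?_⟩
  have hb1 : 1 ≤ b := (le_max_right _ _).trans hb
  have hbb : (b₁ : ℝ) ≤ b := by exact_mod_cast (le_max_left _ _).trans hb
  have hp0 : 0 < m * a + b := by positivity
  have hp : (0 : ℝ) < ((m * a + b : ℕ) : ℝ) := by exact_mod_cast hp0
  set p : ℕ := m * a + b with hpdef
  intro σ
  set δ : ℕ → ℝ := fun k => 1 / ((k : ℝ) + 1) with hδdef
  have hδ : ∀ k, 0 < δ k := fun k => by simp only [hδdef]; positivity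
  have hδ1 : ∀ k, δ k ≤ 1 := fun k => by
    simp only [hδdef]
    rw [div_le_one (by positivity)]
    have : (0 : ℝ) ≤ k := by positivity
    linarith
  have hatV : ∀ i, ∀ z ∈ closedBall (C.c i) (C.r i), At (C.e i) ((C.e i).symm z) :=
    fun i z hz => At.of_target (C.mem i) (C.sub i hz)
  have hrV : ∀ i, ∀ z ∈ closedBall (C.c i) (C.r i), C.e i ((C.e i).symm z) = z :=
    fun i z hz => (C.e i).right_inv (C.sub i hz)
  have hVc : ∀ i, C.V i ⊆ closedBall (C.c i) (C.r i) := fun i => ball_subset_closedBall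
  have hreg : ∀ k i, ∀ z ∈ closedBall (C.c i) (C.r i), 0 < regN m (δ k) N w (C.e i) z := by
    intro k i z hz
    have h1 := regN_pos (w := w) hN (hδ k) (hatV i z hz)
    rwa [hrV i z hz] at h1
  have hN0 : ∀ i, ∀ z ∈ closedBall (C.c i) (C.r i), 0 ≤ N (C.e i) z := by
    intro i z hz
    have h1 := HMet.nonneg hN (hatV i z hz)
    rwa [hrV i z hz] at h1
  -- the approximations
  have hex : ∀ k, ∃ s : PSec n p Z, ∀ i,
      nrm n p (wt m a b (δ k) N w (C.e i)) (C.V i)
        (fun z => σ.coeff (C.e i) z - s.coeff (C.e i) z) ≤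
      ENNReal.ofReal 4 * ∑ j, dnrm n p (wt m a b (δ k) N w (C.e j)) (C.V j)
        (σ.coeff (C.e j)) := by
    intro k
    refine hkey _ (wt_canon hN hw (hδ k) a hb1) _ (wt_pos hN hw hP (hδ k) a hb1) p hp0 ?_ σ
    have h1 : (p : ℝ) * ((b : ℝ) * ((m * a + b : ℕ) : ℝ)⁻¹ * lam) = b * lam := by
      rw [← hpdef]
      field_simp
    rw [h1]
    rw [div_le_iff₀ hlam] at hb₁
    nlinarith
  choose s hs using hex
  set S : ℝ≥0∞ := 4 * ∑ j, sdnrm a b (N (C.e j)) (w (C.e j)) (C.V j) (σ.coeff (C.e j)) with hS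
  by_cases hStop : S = ⊤
  · exact ⟨0, fun i => by rw [hStop]; exact le_top⟩
  -- the uniform bound
  have hsk : ∀ k i, nrm n p (wt m a b (δ k) N w (C.e i)) (C.V i)
      (fun z => σ.coeff (C.e i) z - (s k).coeff (C.e i) z) ≤ S := by
    intro k i
    refine (hs k i).trans ?_
    rw [hS, show ENNReal.ofReal 4 = 4 by norm_num]
    gcongr with j _
    unfold dnrm sdnrm
    refine setLIntegral_mono' (C.isOpen_V j).measurableSet fun z hz => ?_
    have hzc := hVc j hz
    rw [ofReal_wt a hb1 (hreg k j z hzc) (by positivity)]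
    gcongr
    unfold regN
    have : 0 ≤ δ k * Real.exp ((m : ℝ) * w (C.e j) z) :=
      mul_nonneg (hδ k).le (Real.exp_pos _).le
    linarith
  -- continuity on the closed balls
  have hwc : ∀ i, ContinuousOn (w (C.e i)) (closedBall (C.c i) (C.r i)) := by
    intro i z hz
    have h1 := hw.smooth _ _ (hatV i z hz)
    rw [hrV i z hz] at h1
    exact h1.continuousAt.continuousWithinAt
  have hNc : ∀ i, ContinuousOn (N (C.e i)) (closedBall (C.c i) (C.r i)) := by
    intro i z hz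
    have h1 := smooth_N hN (hatV i z hz)
    rw [hrV i z hz] at h1
    exact h1.continuousAt.continuousWithinAt
  have hσc : ∀ i, ContinuousOn (σ.coeff (C.e i)) (closedBall (C.c i) (C.r i)) := by
    intro i z hz
    have h1 := σ.smooth _ _ (hatV i z hz)
    rw [hrV i z hz] at h1
    exact h1.continuousAt.continuousWithinAt
  have hscc : ∀ k i, ContinuousOn ((s k).coeff (C.e i)) (closedBall (C.c i) (C.r i)) := by
    intro k i z hz
    have h1 := (s k).holo _ _ (hatV i z hz)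
    rw [hrV i z hz] at h1
    exact h1.continuousAt.continuousWithinAt
  -- the lower bound for the weights
  have hlow : ∀ i, ∃ κ : ℝ, 0 < κ ∧ ∀ k, ∀ z ∈ C.V i,
      κ ≤ Real.exp (-((p : ℕ) : ℝ) * wt m a b (δ k) N w (C.e i) z) := by
    intro i
    obtain ⟨M₁, hM₁⟩ := (isCompact_closedBall (C.c i) (C.r i)).bddAbove_image (hNc i)
    obtain ⟨M₃, hM₃⟩ := (isCompact_closedBall (C.c i) (C.r i)).bddAbove_image (hwc i)
    set M : ℝ := |M₁| + Real.exp ((m : ℝ) * M₃) with hM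
    have hM0 : 0 < M := by positivity
    refine ⟨M⁻¹ ^ a * Real.exp (-(b : ℝ) * M₃), by positivity, fun k z hz => ?_⟩
    have hzc := hVc i hz
    have hr := hreg k i z hzc
    rw [exp_wt a hb1 hr]
    have h1 : N (C.e i) z ≤ |M₁| := (hM₁ ⟨z, hzc, rfl⟩).trans (le_abs_self _)
    have h2 : w (C.e i) z ≤ M₃ := hM₃ ⟨z, hzc, rfl⟩
    have h3 : regN m (δ k) N w (C.e i) z ≤ M := by
      unfold regN
      have h4 : Real.exp ((m : ℝ) * w (C.e i) z) ≤ Real.exp ((m : ℝ) * M₃) := by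
        gcongr
      have h5 : δ k * Real.exp ((m : ℝ) * w (C.e i) z) ≤ 1 * Real.exp ((m : ℝ) * M₃) :=
        mul_le_mul (hδ1 k) h4 (Real.exp_pos _).le zero_le_one
      linarith
    have h6 : M⁻¹ ≤ (regN m (δ k) N w (C.e i) z)⁻¹ := inv_anti₀ hr h3
    have h7 : Real.exp (-(b : ℝ) * M₃) ≤ Real.exp (-(b : ℝ) * w (C.e i) z) := by
      apply Real.exp_le_exp.2
      have : (0 : ℝ) ≤ b := by positivity
      nlinarith
    exact mul_le_mul (pow_le_pow_left₀ (by positivity) h6 a) h7 (Real.exp_pos _).le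
      (by positivity)
  choose κ hκ0 hκ using hlow
  have hwnd : ∀ k i, Lim.wn (C.V i) (fun _ => 0)
      (fun z => (s k).coeff (C.e i) z - σ.coeff (C.e i) z) ^ 2 ≤ ENNReal.ofReal (κ i)⁻¹ * S := by
    intro k i
    rw [Lim.wn_sub_comm, Lim.wn_sq]
    refine le_trans ?_ (mul_le_mul_right (hsk k i) _)
    unfold nrm
    rw [← lintegral_const_mul' _ _ ENNReal.ofReal_ne_top]
    refine setLIntegral_mono' (C.isOpen_V i).measurableSet fun z hz => ?_
    rw [← ENNReal.ofReal_mul (inv_nonneg.2 (hκ0 i).le)]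
    refine ENNReal.ofReal_le_ofReal ?_
    rw [neg_zero, Real.exp_zero, mul_one]
    have h1 := hκ i k z hz
    have h2 : 1 ≤ (κ i)⁻¹ * Real.exp (-((p : ℕ) : ℝ) * wt m a b (δ k) N w (C.e i) z) := by
      rw [inv_mul_eq_div, one_le_div (hκ0 i)]
      exact h1
    have h3 : 0 ≤ ‖σ.coeff (C.e i) z - (s k).coeff (C.e i) z‖ ^ 2 := by positivity
    nlinarith
  have hσwn : ∀ i, Lim.wn (C.V i) (fun _ => 0) (σ.coeff (C.e i)) ≠ ⊤ := by
    intro i
    have h1 : Lim.wn (C.V i) (fun _ => 0) (σ.coeff (C.e i)) ^ 2 ≠ ⊤ := by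
      rw [Lim.wn_sq]
      obtain ⟨b', hb'⟩ := (isCompact_closedBall (C.c i) (C.r i)).exists_bound_of_continuousOn
        (hσc i)
      refine ne_top_of_le_ne_top (b := ∫⁻ _ in C.V i, ENNReal.ofReal (b' ^ 2)) ?_ ?_
      · rw [setLIntegral_const]
        exact ENNReal.mul_ne_top ENNReal.ofReal_ne_top measure_ball_lt_top.ne
      · refine setLIntegral_mono' (C.isOpen_V i).measurableSet fun z hz =>
          ENNReal.ofReal_le_ofReal ?_
        rw [neg_zero, Real.exp_zero, mul_one]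
        exact pow_le_pow_left₀ (norm_nonneg _) (hb' z (hVc i hz)) 2
    intro h2
    rw [h2] at h1
    simp at h1
  set Bd : Fin C.N → ℝ≥0∞ := fun i =>
    (1 + ENNReal.ofReal (κ i)⁻¹ * S) + Lim.wn (C.V i) (fun _ => 0) (σ.coeff (C.e i)) with hBd
  have hBdi : ∀ k i, Lim.wn (C.V i) (fun _ => 0) ((s k).coeff (C.e i)) ≤ Bd i := by
    intro k i
    have h1 : (s k).coeff (C.e i) = fun z =>
        ((s k).coeff (C.e i) z - σ.coeff (C.e i) z) + σ.coeff (C.e i) z := by
      funext z; ring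
    rw [h1]
    refine (Lim.wn_add_le (C.isOpen_V i) continuousOn_const
      (((hscc k i).sub (hσc i)).mono (hVc i)) ((hσc i).mono (hVc i))).trans ?_
    simp only [hBd]
    gcongr
    have h2 := hwnd k i
    set x := Lim.wn (C.V i) (fun _ => 0) (fun z => (s k).coeff (C.e i) z - σ.coeff (C.e i) z)
    rcases le_total x 1 with hx | hx
    · exact hx.trans le_self_add
    · calc x = x * 1 := (mul_one _).symm
        _ ≤ x * x := by gcongr
        _ = x ^ 2 := (sq x).symm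
        _ ≤ _ := h2.trans le_add_self
  have hcov : ∀ x : Z, ∃ i, x ∈ (C.e i).source ∧ C.e i x ∈ ball (C.c i) (C.r i) := by
    intro x
    have h1 : ∃ i, C.χ i x ≠ 0 := by
      by_contra h
      simp only [not_exists, not_not] at h
      have h2 := C.sum_one x
      simp [h] at h2
    obtain ⟨i, hi⟩ := h1
    exact ⟨i, (C.supp i x hi).1, C.K_sub i (C.supp i x hi).2⟩
  obtain ⟨ι, t, hι, ht⟩ := psec_compact C.e C.mem C.c C.r
    (fun i => ball_subset_closedBall.trans (C.sub i)) hcov s (B := ∑ i, Bd i)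
    (by
      refine ENNReal.sum_ne_top.2 fun i _ => ?_
      simp only [hBd]
      exact ENNReal.add_ne_top.2 ⟨ENNReal.add_ne_top.2 ⟨ENNReal.one_ne_top,
        ENNReal.mul_ne_top ENNReal.ofReal_ne_top hStop⟩, hσwn i⟩)
    (fun k i => (hBdi k i).trans (Finset.single_le_sum (f := Bd) (fun _ _ => zero_le)
      (Finset.mem_univ i)))
  refine ⟨t, fun i => ?_⟩
  -- Fatou
  have hιt : Tendsto ι atTop atTop := tendsto_atTop_mono hι tendsto_id
  have hδt : Tendsto (fun j => δ (ι j)) atTop (𝓝 0) := by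
    have h1 : Tendsto δ atTop (𝓝 0) := tendsto_one_div_add_atTop_nhds_zero_nat
    exact h1.comp hιt
  have hpt : ∀ z ∈ C.V i,
      ENNReal.ofReal (‖σ.coeff (C.e i) z - t.coeff (C.e i) z‖ ^ 2 *
        Real.exp (-(b : ℝ) * w (C.e i) z)) * (ENNReal.ofReal (N (C.e i) z))⁻¹ ^ a ≤
      liminf (fun j => ENNReal.ofReal (‖σ.coeff (C.e i) z - (s (ι j)).coeff (C.e i) z‖ ^ 2 *
        Real.exp (-((p : ℕ) : ℝ) * wt m a b (δ (ι j)) N w (C.e i) z))) atTop := by
    intro z hz
    have hzc := hVc i hz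
    have h1 : (fun j => ENNReal.ofReal (‖σ.coeff (C.e i) z - (s (ι j)).coeff (C.e i) z‖ ^ 2 *
        Real.exp (-((p : ℕ) : ℝ) * wt m a b (δ (ι j)) N w (C.e i) z))) = fun j =>
        ENNReal.ofReal (‖σ.coeff (C.e i) z - (s (ι j)).coeff (C.e i) z‖ ^ 2 *
          Real.exp (-(b : ℝ) * w (C.e i) z)) *
          (ENNReal.ofReal (regN m (δ (ι j)) N w (C.e i) z))⁻¹ ^ a := by
      funext j
      exact ofReal_wt a hb1 (hreg (ι j) i z hzc) (by positivity)
    rw [h1]
    refine mul_le_liminf ENNReal.ofReal_ne_top ?_ ?_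
    · refine (ENNReal.continuous_ofReal.tendsto _).comp ?_
      exact (((tendsto_const_nhds.sub (ht i z hz)).norm).pow 2).mul_const _
    · refine ENNReal.Tendsto.pow (ENNReal.tendsto_inv_iff.2
        ((ENNReal.continuous_ofReal.tendsto _).comp ?_))
      unfold regN
      have h2 := (hδt.mul_const (Real.exp ((m : ℝ) * w (C.e i) z))).const_add (N (C.e i) z)
      simpa using h2
  have hmeas : ∀ j, AEMeasurable (fun z => ENNReal.ofReal
      (‖σ.coeff (C.e i) z - (s (ι j)).coeff (C.e i) z‖ ^ 2 *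
        Real.exp (-((p : ℕ) : ℝ) * wt m a b (δ (ι j)) N w (C.e i) z)))
      (volume.restrict (C.V i)) := by
    intro j
    refine ENNReal.measurable_ofReal.comp_aemeasurable ?_
    refine ContinuousOn.aemeasurable ?_ (C.isOpen_V i).measurableSet
    have hφc : ContinuousOn (wt m a b (δ (ι j)) N w (C.e i)) (C.V i) := by
      intro z hz
      have h1 := (wt_canon hN hw (hδ (ι j)) a hb1).smooth _ _ (hatV i z (hVc i hz))
      rw [hrV i z (hVc i hz)] at h1
      exact h1.continuousAt.continuousWithinAt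
    exact ((((hσc i).mono (hVc i)).sub ((hscc (ι j) i).mono (hVc i))).norm.pow 2).mul
      (Real.continuous_exp.comp_continuousOn (continuousOn_const.mul hφc))
  unfold snrm
  calc ∫⁻ z in C.V i, ENNReal.ofReal (‖σ.coeff (C.e i) z - t.coeff (C.e i) z‖ ^ 2 *
        Real.exp (-(b : ℝ) * w (C.e i) z)) * (ENNReal.ofReal (N (C.e i) z))⁻¹ ^ a
      ≤ ∫⁻ z in C.V i, liminf (fun j => ENNReal.ofReal
          (‖σ.coeff (C.e i) z - (s (ι j)).coeff (C.e i) z‖ ^ 2 *
          Real.exp (-((p : ℕ) : ℝ) * wt m a b (δ (ι j)) N w (C.e i) z))) atTop :=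
        setLIntegral_mono' (C.isOpen_V i).measurableSet hpt
    _ ≤ liminf (fun j => ∫⁻ z in C.V i, ENNReal.ofReal
          (‖σ.coeff (C.e i) z - (s (ι j)).coeff (C.e i) z‖ ^ 2 *
          Real.exp (-((p : ℕ) : ℝ) * wt m a b (δ (ι j)) N w (C.e i) z))) atTop :=
        lintegral_liminf_le' hmeas
    _ ≤ S := by
        refine (liminf_le_liminf (Eventually.of_forall fun j => hsk (ι j) i)).trans ?_
        rw [liminf_const]

/-- **SKey.** -/
theorem skey : SKeyStmt := by
  intro n m Z _ _ _ _ _ w hw hpos H _ _ _ N hN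
  exact skey' hw hpos hN

end Vale.Agent.P284.H213.KL
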