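import Vale.Agent.P284.H812.KOS
import Vale.Agent.P272.KOD.KDefs

/-!
# P284 (helper213): the key approximation for the singular weights `a log N + b w`

`N` is a Hilbert weight on `K_Z^m` (`HMet` of helper812), `w` a smooth canonical metric of positive
curvature.  Sections of `K_Z^(m a + b)` are measured with `|σ|² N^(-a) e^(-b w)`
(`= ∞` where `N = 0`, `a ≥ 1`, `σ ≠ 0`).  All constants are uniform in `a`.
-/

open scoped Manifold ContDiff Topology ComplexOrder ENNReal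
open Filter MeasureTheory

noncomputable section

namespace Vale.Agent.P284.H213.KL

open Vale.Agent.P272.K Vale.Agent.P272.KOD Vale.Agent.P284.H812

/-- Squared `L²` norm over `V` of `f`, with the singular weight `a log N + b w`. -/
def snrm {n : ℕ} (a b : ℕ) (N w : Cm n → ℝ) (V : Set (Cm n)) (f : Cm n → ℂ) : ℝ≥0∞ :=
  ∫⁻ z in V, ENNReal.ofReal (‖f z‖ ^ 2 * Real.exp (-(b : ℝ) * w z)) * (ENNReal.ofReal (N z))⁻¹ ^ a

/-- Squared `L²` norm over `V` of `∂̄f`, with the singular weight `a log N + b w`. -/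
def sdnrm {n : ℕ} (a b : ℕ) (N w : Cm n → ℝ) (V : Set (Cm n)) (f : Cm n → ℂ) : ℝ≥0∞ :=
  ∫⁻ z in V, ENNReal.ofReal ((∑ l, ‖dzb l f z‖ ^ 2) * Real.exp (-(b : ℝ) * w z)) *
    (ENNReal.ofReal (N z))⁻¹ ^ a

/-- **SKey**: on a fixed finite cover `C` of `Z` by coordinate polydiscs every smooth section `σ` of
`K_Z^(m a + b)`, `b ≥ b₀`, is approximated by a holomorphic section `s`, with the constant `4`, for
the singular weight `a log N + b w`, uniformly in `a` and `b`. -/
def SKeyStmt : Prop :=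
  ∀ (n m : ℕ) (Z : Type) [TopologicalSpace Z] [T2Space Z] [CompactSpace Z]
    [ChartedSpace (Cm n) Z] [IsManifold 𝓘(ℂ, Cm n) ω Z]
    (w : Chart n Z → Cm n → ℝ) (_ : IsCanonicalMetric w)
    (_ : ∀ e x, At e x → (cHess (w e) (e x)).PosDef)
    (H : Type) [NormedAddCommGroup H] [InnerProductSpace ℂ H] [CompleteSpace H]
    (N : Chart n Z → Cm n → ℝ) (_ : HMet n m Z H N),
    ∃ (C : PCov n Z) (b₀ : ℕ), 1 ≤ b₀ ∧ ∀ a b : ℕ, b₀ ≤ b → ∀ σ : SSec n (m * a + b) Z,
      ∃ s : PSec n (m * a + b) Z, ∀ i,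
        snrm a b (N (C.e i)) (w (C.e i)) (C.V i)
            (fun z => σ.coeff (C.e i) z - s.coeff (C.e i) z) ≤
          4 * ∑ j, sdnrm a b (N (C.e j)) (w (C.e j)) (C.V j) (σ.coeff (C.e j))

end Vale.Agent.P284.H213.KL
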