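import Vale.Agent.P284.H213.KL.DimH
import Vale.Agent.P284.H451.KLS

/-! # P284 (helper213): block `DimStmt` of helper451 -/

open scoped Manifold ContDiff

noncomputable section

namespace Vale.Agent.P284.H213.KL

open Vale.Agent.P272.K Vale.Agent.P272.KOD Vale.Agent.P284.H451

theorem dimStmt : DimStmt := by
  intro n Z _ _ _ _ _ w _
  obtain ⟨C, hC⟩ := dim_fam (n := n) (Z := Z)
  refine ⟨C, fun M k s h => ?_⟩
  by_contra hlt
  rw [not_le] at hlt
  obtain ⟨c, hc, h0⟩ := hC M k s hlt
  exact hc (h c h0)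

end Vale.Agent.P284.H213.KL
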