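import Vale.Agent.P284.H213.KL.SK1
import Vale.Agent.P284.H213.KL.SKeyS
import Vale.Agent.P272.K.Inv.Chart

/-!
# P284 (helper213): the smooth canonical metric `(a log (N + δ e^{m w}) + b w) / (m a + b)`
-/

open scoped Manifold ContDiff Topology ComplexOrder ENNReal ComplexConjugate InnerProductSpace
open Filter MeasureTheory

set_option linter.all false

noncomputable section

namespace Vale.Agent.P284.H213.KL

open Vale.Agent.P272.K Vale.Agent.P272.K.C2 Vale.Agent.P272.KOD Vale.Agent.P284.H812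

variable {n m : ℕ} {Z : Type*} [TopologicalSpace Z] [ChartedSpace (Cm n) Z]
  {H : Type*} [NormedAddCommGroup H] [InnerProductSpace ℂ H]

lemma HMet.nonneg {N : Chart n Z → Cm n → ℝ} (hN : HMet n m Z H N) {e : Chart n Z} {x : Z}
    (h : At e x) : 0 ≤ N e (e x) := by
  obtain ⟨v, -, h2⟩ := hN.loc e x h
  rw [h2.self_of_nhds]; positivity

/-- `N + δ e^{m w}` -/
def regN (m : ℕ) (δ : ℝ) (N w : Chart n Z → Cm n → ℝ) (e : Chart n Z) (z : Cm n) : ℝ :=
  N e z + δ * Real.exp ((m : ℝ) * w e z)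

/-- the regularised weight -/
def wt (m a b : ℕ) (δ : ℝ) (N w : Chart n Z → Cm n → ℝ) (e : Chart n Z) (z : Cm n) : ℝ :=
  ((a : ℝ) * Real.log (regN m δ N w e z) + (b : ℝ) * w e z) * ((m * a + b : ℕ) : ℝ)⁻¹

section
variable [CompleteSpace H] {N w : Chart n Z → Cm n → ℝ}

lemma regN_pos (hN : HMet n m Z H N) {δ : ℝ} (hδ : 0 < δ) {e : Chart n Z} {x : Z}
    (h : At e x) : 0 < regN m δ N w e (e x) := by
  have := HMet.nonneg hN h
  unfold regN; positivity

lemma smooth_N (hN : HMet n m Z H N) {e : Chart n Z} {x : Z} (h : At e x) :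
    ContDiffAt ℝ ∞ (N e) (e x) := by
  obtain ⟨v, h1, h2⟩ := hN.loc e x h
  exact (contDiffAt_normSq h1).congr_of_eventuallyEq h2

lemma smooth_regN (hN : HMet n m Z H N) (hw : IsCanonicalMetric w) {δ : ℝ} {e : Chart n Z} {x : Z}
    (h : At e x) : ContDiffAt ℝ ∞ (regN m δ N w e) (e x) :=
  (smooth_N hN h).add (contDiffAt_const.mul (contDiffAt_const.mul (hw.smooth e x h)).exp)

lemma smooth_log (hN : HMet n m Z H N) (hw : IsCanonicalMetric w) {δ : ℝ} (hδ : 0 < δ)
    {e : Chart n Z} {x : Z} (h : At e x) :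
    ContDiffAt ℝ ∞ (fun z => Real.log (regN m δ N w e z)) (e x) :=
  (smooth_regN hN hw h).log (regN_pos hN hδ h).ne'

theorem wt_canon [IsManifold 𝓘(ℂ, Cm n) ω Z] (hN : HMet n m Z H N) (hw : IsCanonicalMetric w)
    {δ : ℝ} (hδ : 0 < δ) (a : ℕ) {b : ℕ} (hb : 1 ≤ b) :
    IsCanonicalMetric (wt m a b δ N w) := by
  constructor
  · intro e x h
    exact ((contDiffAt_const.mul (smooth_log hN hw hδ h)).add
      (contDiffAt_const.mul (hw.smooth e x h))).mul contDiffAt_const
  · intro e e' x h h'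
    set J : ℝ := ‖(jacM e e' x).det‖ ^ 2 with hJ
    have hJ0 : 0 < J := pow_pos (norm_pos_iff.2 (jacM_det_ne_zero h h')) 2
    have h1 : regN m δ N w e (e x) = regN m δ N w e' (e' x) * J ^ m := by
      unfold regN
      rw [hN.change e e' x h h', hw.change e e' x h h', mul_add, Real.exp_add]
      have : Real.exp ((m : ℝ) * Real.log J) = J ^ m := by
        rw [← Real.log_pow, Real.exp_log (pow_pos hJ0 m)]
      rw [this]; ring
    have h2 : Real.log (regN m δ N w e (e x)) =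
        Real.log (regN m δ N w e' (e' x)) + m * Real.log J := by
      rw [h1, Real.log_mul (regN_pos hN hδ h').ne' (pow_pos hJ0 m).ne', Real.log_pow]
    have h3 : ((m * a + b : ℕ) : ℝ) ≠ 0 := by
      have : 0 < m * a + b := by positivity
      exact_mod_cast this.ne'
    unfold wt
    rw [h2, hw.change e e' x h h']
    field_simp
    push_cast
    ring

theorem lev_wt_ge (hN : HMet n m Z H N) (hw : IsCanonicalMetric w) {δ : ℝ} (hδ : 0 < δ) (a b : ℕ)
    {e : Chart n Z} {x : Z} (h : At e x) (β : Cm n) (hβ : 0 ≤ lev (w e) (e x) β) :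
    (b : ℝ) * ((m * a + b : ℕ) : ℝ)⁻¹ * lev (w e) (e x) β ≤ lev (wt m a b δ N w e) (e x) β := by
  obtain ⟨v, h1, h2⟩ := hN.loc e x h
  have hlog : ContDiffAt ℝ 2 (fun z => Real.log (regN m δ N w e z)) (e x) :=
    (smooth_log hN hw hδ h).of_le (by norm_cast)
  have hw2 : ContDiffAt ℝ 2 (w e) (e x) := (hw.smooth e x h).of_le (by norm_cast)
  have h3 : lev (fun z => Real.log (regN m δ N w e z)) (e x) β =
      lev (fun y => Real.log (‖v y‖ ^ 2 + δ * Real.exp ((m : ℝ) * w e y))) (e x) β := by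
    apply lev_congr
    filter_upwards [h2] with y hy
    unfold regN; rw [hy]
  have h4 : 0 ≤ lev (fun z => Real.log (regN m δ N w e z)) (e x) β := by
    rw [h3]; exact lev_log_add h1 hw2 β hβ hδ m
  have h5 : lev (wt m a b δ N w e) (e x) β = ((m * a + b : ℕ) : ℝ)⁻¹ *
      ((a : ℝ) * lev (fun z => Real.log (regN m δ N w e z)) (e x) β +
        (b : ℝ) * lev (w e) (e x) β) := by
    have e1 : wt m a b δ N w e = fun z => ((m * a + b : ℕ) : ℝ)⁻¹ *
        ((a : ℝ) * Real.log (regN m δ N w e z) + (b : ℝ) * w e z) := by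
      funext z; unfold wt; ring
    rw [e1, lev_const_mul ((contDiffAt_const.mul hlog).add (contDiffAt_const.mul hw2)),
      lev_add (contDiffAt_const.mul hlog) (contDiffAt_const.mul hw2), lev_const_mul hlog,
      lev_const_mul hw2]
  rw [h5]
  have h6 : 0 ≤ ((m * a + b : ℕ) : ℝ)⁻¹ * ((a : ℝ) *
      lev (fun z => Real.log (regN m δ N w e z)) (e x) β) := by positivity
  nlinarith

theorem wt_pos [IsManifold 𝓘(ℂ, Cm n) ω Z] (hN : HMet n m Z H N) (hw : IsCanonicalMetric w)
    {C : PCov n Z} {lam : ℝ} (hC : C.Pos w lam) {δ : ℝ} (hδ : 0 < δ) (a : ℕ) {b : ℕ} (hb : 1 ≤ b) :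
    C.Pos (wt m a b δ N w) ((b : ℝ) * ((m * a + b : ℕ) : ℝ)⁻¹ * lam) := by
  obtain ⟨hl, hC⟩ := hC
  have h0 : 0 < m * a + b := by positivity
  have h0' : (0 : ℝ) < ((m * a + b : ℕ) : ℝ) := by exact_mod_cast h0
  have hb0 : (0 : ℝ) < b := by exact_mod_cast hb
  refine ⟨by positivity, fun i z hz β => ?_⟩
  have h1 := hC i z hz β
  have h2 : At (C.e i) ((C.e i).symm z) := At.of_target (C.mem i) (C.sub i hz)
  have h3 : C.e i ((C.e i).symm z) = z := (C.e i).right_inv (C.sub i hz)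
  have h4 : 0 ≤ lev (w (C.e i)) z β := le_trans (by positivity) h1
  have h5 := lev_wt_ge hN hw hδ a b h2 β (by rw [h3]; exact h4)
  rw [h3] at h5
  refine le_trans ?_ h5
  rw [mul_assoc]
  exact mul_le_mul_of_nonneg_left h1 (by positivity)

end

end Vale.Agent.P284.H213.KL
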