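import Vale.Agent.P268.Hol
import Vale.Agent.P272.K.Stmt
import Mathlib.Analysis.Complex.Schwarz
import Mathlib.Analysis.Analytic.Order

/-!
# P284 (helper213): Schwarz lemma of order `T` at a point of `ℂⁿ`, and the `T^n` jet conditions
(the first part is the text of helper427's block G2 and helper622's block G1)
-/

open scoped Topology
open Filter Set Metric Asymptotics

set_option linter.all false

noncomputable section

namespace Vale.Agent.P284.H213.KL

open Vale.Agent.P272.K

/-- Schwarz lemma of order `M` in one variable. -/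
theorem schwarz_one {g : ℂ → ℂ} {B : ℝ} {M : ℕ} (hd : DifferentiableOn ℂ g (ball 0 1))
    (hB : ∀ t ∈ ball (0 : ℂ) 1, ‖g t‖ ≤ B) (h : ∀ k < M, iteratedDeriv k g 0 = 0) {t : ℂ}
    (ht : t ∈ ball (0 : ℂ) 1) : ‖g t‖ ≤ B * ‖t‖ ^ M := by
  rcases M with _ | k
  · simpa using hB t ht
  · have h0 : g 0 = 0 := by simpa using h 0 (Nat.succ_pos k)
    have han : AnalyticAt ℂ g 0 := hd.analyticAt (isOpen_ball.mem_nhds (mem_ball_self one_pos))
    obtain ⟨q, hq, hgq⟩ := (natCast_le_analyticOrderAt han).1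
      ((natCast_le_analyticOrderAt_iff_iteratedDeriv_eq_zero han).2 h)
    have hlit : (fun w => g w - g 0) =o[𝓝 0] fun w : ℂ => ‖w - 0‖ ^ k := by
      have h1 : (fun w : ℂ => w ^ k * (w * q w)) =o[𝓝 0] fun w : ℂ => w ^ k * (1 : ℂ) := by
        refine (isBigO_refl (fun w : ℂ => w ^ k) (𝓝 0)).mul_isLittleO ?_
        rw [isLittleO_one_iff]
        have h2 : ContinuousAt (fun w : ℂ => w * q w) 0 := by
          exact continuousAt_id.mul hq.continuousAt
        simpa [ContinuousAt] using h2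
      have h3 : (fun w => g w - g 0) =ᶠ[𝓝 0] fun w : ℂ => w ^ k * (w * q w) := by
        filter_upwards [hgq] with w hw
        rw [hw, h0, sub_zero, sub_zero, smul_eq_mul]
        ring
      refine (h1.congr' h3.symm EventuallyEq.rfl).trans_isBigO ?_
      refine IsBigO.of_bound 1 ?_
      filter_upwards with w
      simp
    have h4 := Complex.dist_le_mul_div_pow_of_mapsTo_ball_of_isLittleO (R₂ := B) hd (fun w hw => by
      rw [h0, mem_closedBall, dist_zero_right]
      exact hB w hw) hlit ht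
    rw [h0, dist_zero_right, dist_zero_right, div_one] at h4
    exact h4

/-- Schwarz lemma of order `M` at a point of `ℂⁿ`. -/
theorem schwarz_n {n : ℕ} (f : Cm n → ℂ) (z : Cm n) (r B : ℝ) (M : ℕ) (hr : 0 < r)
    (hd : DifferentiableOn ℂ f (ball z r)) (hB : ∀ w ∈ ball z r, ‖f w‖ ≤ B)
    (h : ∀ k < M, ∀ v : Cm n, iteratedDeriv k (fun t : ℂ => f (z + t • v)) 0 = 0) :
    ∀ w ∈ closedBall z (r / 2), ‖f w‖ ≤ B * (1 / 2) ^ M := by
  intro w hw
  rw [mem_closedBall, dist_eq_norm] at hw
  have hv : ‖(2 : ℂ) • (w - z)‖ ≤ r := by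
    rw [norm_smul, Complex.norm_ofNat]
    linarith
  have hin : ∀ t ∈ ball (0 : ℂ) 1, z + t • ((2 : ℂ) • (w - z)) ∈ ball z r := by
    intro t ht
    rw [mem_ball, dist_zero_right] at ht
    rw [mem_ball, dist_eq_norm, add_sub_cancel_left, norm_smul]
    calc ‖t‖ * ‖(2 : ℂ) • (w - z)‖ ≤ ‖t‖ * r := by gcongr
      _ < 1 * r := by gcongr
      _ = r := one_mul r
  have h1 := schwarz_one (g := fun t : ℂ => f (z + t • ((2 : ℂ) • (w - z)))) (B := B) (M := M)
    (hd.comp (by fun_prop) hin) (fun t ht => hB _ (hin t ht)) (fun k hk => h k hk _)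
    (t := 1 / 2) (by
      rw [mem_ball, dist_zero_right]
      norm_num)
  have h2 : z + (1 / 2 : ℂ) • ((2 : ℂ) • (w - z)) = w := by
    rw [smul_smul]
    norm_num
  rw [h2] at h1
  refine h1.trans_eq ?_
  congr 2
  norm_num

/-! ### the jet conditions -/

/-- the type of a word -/
def tp {k n : ℕ} (r : Fin k → Fin n) : Fin n → ℕ := fun j =>
  (Finset.univ.filter fun i => r i = j).card

theorem tp_lt {k n M : ℕ} (hk : k < M) (r : Fin k → Fin n) (j : Fin n) : tp r j < M :=
  lt_of_le_of_lt ((Finset.card_le_univ _).trans_eq (Fintype.card_fin k)) hk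

theorem sum_tp {k n : ℕ} (r : Fin k → Fin n) : ∑ j, tp r j = k := by
  classical
  have := Finset.card_eq_sum_card_fiberwise (f := r) (s := Finset.univ) (t := Finset.univ)
    (fun _ _ => Finset.mem_coe.2 (Finset.mem_univ _))
  rw [Finset.card_univ, Fintype.card_fin] at this
  exact this.symm

theorem prod_tp {k n : ℕ} (r : Fin k → Fin n) (v : Fin n → ℂ) :
    ∏ i, v (r i) = ∏ j, v j ^ (tp r j) := by
  classical
  rw [← Finset.prod_fiberwise' Finset.univ r v]
  refine Finset.prod_congr rfl fun j _ => ?_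
  simp [tp, Finset.prod_const]

theorem multi_expand {k n : ℕ} (L : (Cm n) [×k]→L[ℂ] ℂ) (v : Cm n) :
    L (fun _ => v) = ∑ r : Fin k → Fin n, (∏ i, v (r i)) * L (fun i => Pi.single (r i) 1) := by
  classical
  have hv : v = ∑ j, v j • (Pi.single j (1 : ℂ) : Cm n) := by
    ext i
    simp [Finset.sum_apply, Pi.single_apply]
  have h1 : L (fun _ => v) = L (fun _ => ∑ j, v j • (Pi.single j (1 : ℂ) : Cm n)) := by
    rw [← hv]
  rw [h1, L.map_sum]
  refine Finset.sum_congr rfl fun r _ => ?_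
  rw [L.map_smul_univ, smul_eq_mul]

/-- the jet condition number `α` (`|α|! / α!` times the coefficient of `z^α`, unnormalised), as a
function of `f` -/
def jetL {n : ℕ} (z : Cm n) (α : Fin n → ℕ) (f : Cm n → ℂ) : ℂ :=
  ∑ r ∈ Finset.univ.filter (fun r : Fin (∑ j, α j) → Fin n => tp r = α),
    iteratedFDeriv ℂ (∑ j, α j) f z (fun i => Pi.single (r i) 1)

/-- the jet conditions kill all derivatives along lines -/
theorem line_of_jet {n M : ℕ} {f : Cm n → ℂ} {z : Cm n} {V : Set (Cm n)} (hV : IsOpen V)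
    (hz : z ∈ V) (hf : DifferentiableOn ℂ f V)
    (h : ∀ α : Fin n → Fin M, jetL z (fun j => (α j : ℕ)) f = 0) :
    ∀ k < M, ∀ v : Cm n, iteratedDeriv k (fun t : ℂ => f (z + t • v)) 0 = 0 := by
  classical
  intro k hk v
  have hzz : z + (0 : ℂ) • v ∈ V := by simpa using hz
  have hcd : ContDiffOn ℂ k f V :=
    (Vale.Agent.P268.analyticOnNhd_of_differentiableOn hV hf).contDiffOn hV.uniqueDiffOn
  rw [Vale.Agent.P268.iteratedDeriv_line hV hcd hzz, zero_smul, add_zero, multi_expand]
  set T : (Fin k → Fin n) → ℂ := fun r => iteratedFDeriv ℂ k f z (fun j => Pi.single (r j) 1)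
    with hT
  have hT0 : ∀ α : Fin n → Fin M,
      ∑ r ∈ Finset.univ.filter (fun r : Fin k → Fin n => tp r = fun j => (α j : ℕ)), T r = 0 := by
    intro α
    by_cases hα : ∑ j, (α j : ℕ) = k
    · subst hα
      exact h α
    · refine Finset.sum_eq_zero fun r hr => ?_
      exfalso
      apply hα
      have h1 := (Finset.mem_filter.1 hr).2
      rw [← sum_tp r, h1]
  let tp' : (Fin k → Fin n) → (Fin n → Fin M) := fun r j => ⟨tp r j, tp_lt hk r j⟩
  change ∑ r : Fin k → Fin n, (∏ i, v (r i)) * T r = 0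
  rw [← Finset.sum_fiberwise Finset.univ tp' fun r => (∏ i, v (r i)) * T r]
  refine Finset.sum_eq_zero fun α _ => ?_
  have h3 : (Finset.univ.filter fun r => tp' r = α) =
      Finset.univ.filter (fun r : Fin k → Fin n => tp r = fun j => (α j : ℕ)) := by
    ext r
    simp only [Finset.mem_filter, Finset.mem_univ, true_and, tp']
    constructor
    · rintro rfl; rfl
    · intro h; funext j; exact Fin.ext (congrFun h j)
  have : ∀ r ∈ Finset.univ.filter (fun r => tp' r = α),
      (∏ i, v (r i)) * T r = (∏ j, v j ^ (α j : ℕ)) * T r := by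
    intro r hr
    rw [h3] at hr
    rw [prod_tp r v, (Finset.mem_filter.1 hr).2]
  rw [Finset.sum_congr rfl this, ← Finset.mul_sum, h3, hT0 α, mul_zero]

/-- linearity of the jet conditions -/
theorem jetL_sum {n : ℕ} {ι : Type*} (S : Finset ι) (c : ι → ℂ) {f : ι → Cm n → ℂ} {z : Cm n}
    (hf : ∀ i ∈ S, AnalyticAt ℂ (f i) z) (α : Fin n → ℕ) :
    jetL z α (fun y => ∑ i ∈ S, c i * f i y) = ∑ i ∈ S, c i * jetL z α (f i) := by
  classical
  unfold jetL
  have h1 : iteratedFDeriv ℂ (∑ j, α j) (fun y => ∑ i ∈ S, c i * f i y) z =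
      ∑ i ∈ S, c i • iteratedFDeriv ℂ (∑ j, α j) (f i) z := by
    have hcd : ∀ i ∈ S, ContDiffAt ℂ (∑ j, α j : ℕ) (f i) z := fun i hi => (hf i hi).contDiffAt
    have h2 := iteratedFDeriv_fun_sum_apply (𝕜 := ℂ) (n := ∑ j, α j) (u := S)
      (f := fun i => c i • f i) (x := z) (fun i hi => (hcd i hi).const_smul (c i))
    have h3 : (fun y => ∑ i ∈ S, c i * f i y) = fun y => ∑ i ∈ S, (c i • f i) y := by
      funext y; simp
    rw [h3]
    refine h2.trans (Finset.sum_congr rfl fun i hi => ?_)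
    exact iteratedFDeriv_const_smul_apply (hcd i hi)
  rw [h1]
  simp only [Finset.mul_sum, ContinuousMultilinearMap.sum_apply, ContinuousMultilinearMap.smul_apply,
    smul_eq_mul]
  rw [Finset.sum_comm]

end Vale.Agent.P284.H213.KL
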